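import Vale.Agent.P209.Packing

/-!
Any number of balls: the two conditions suffice up to a constant depending only on the dimension.
-/

namespace Vale.Agent.P209

open scoped Topology ContDiff
open Filter Finset

variable {n : ℕ} {ι κ : Type*}

/-- A packing with an arbitrary index type. -/
def Packs (n : ℕ) (R : ℝ) (r : ι → ℝ) : Prop :=
  ∃ φ : ι → (Fin n → ℂ) → (Fin n → ℂ),
    (∀ i, ∃ U, closedCapBall n (r i) ⊆ U ∧ IsSympEmbOn U (φ i)) ∧
    (∀ i, Set.MapsTo (φ i) (closedCapBall n (r i)) (openCapBall n R)) ∧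
    Pairwise fun i j => Disjoint (φ i '' closedCapBall n (r i)) (φ j '' closedCapBall n (r j))

lemma hasPacking_iff {k : ℕ} {R : ℝ} {r : Fin k → ℝ} : HasPacking n R r ↔ Packs n R r := Iff.rfl

lemma Packs.reindex {R : ℝ} {r : κ → ℝ} (e : ι ↪ κ) (h : Packs n R r) : Packs n R (fun i => r (e i)) := by
  obtain ⟨φ, h1, h2, h3⟩ := h
  exact ⟨fun i => φ (e i), fun i => h1 _, fun i => h2 _, fun i j hij => h3 (e.injective.ne hij)⟩

lemma isSympEmbOn_comp {U V : Set (Fin n → ℂ)} {ψ φ : (Fin n → ℂ) → (Fin n → ℂ)}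
    (hψ : IsSympEmbOn U ψ) (hφ : IsSympEmbOn V φ) : IsSympEmbOn (U ∩ ψ ⁻¹' V) (φ ∘ ψ) := by
  obtain ⟨hU, hs, hω, he⟩ := hψ
  obtain ⟨hV, ht, hη, hf⟩ := hφ
  have hW : IsOpen (U ∩ ψ ⁻¹' V) := hs.continuousOn.isOpen_inter_preimage hU hV
  have hsm : ContDiffOn ℝ ∞ (φ ∘ ψ) (U ∩ ψ ⁻¹' V) :=
    ht.comp (hs.mono Set.inter_subset_left) fun x hx => hx.2
  have hωc : ∀ x ∈ U ∩ ψ ⁻¹' V, ∀ u v, omega0 (fderiv ℝ (φ ∘ ψ) x u) (fderiv ℝ (φ ∘ ψ) x v) = omega0 u v := by
    intro x hx u v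
    rw [fderiv_comp x ((ht.contDiffAt (hV.mem_nhds hx.2)).differentiableAt (by simp))
      ((hs.contDiffAt (hU.mem_nhds hx.1)).differentiableAt (by simp))]
    simp only [ContinuousLinearMap.coe_comp, Function.comp_apply]
    rw [hη _ hx.2, hω _ hx.1]
  refine ⟨hW, hsm, hωc, isOpenEmbedding_of_symp hW hsm hωc fun x hx y hy h => ?_⟩
  have h1 : (⟨ψ x, hx.2⟩ : V) = ⟨ψ y, hy.2⟩ := hf.injective h
  have h2 : (⟨x, hx.1⟩ : U) = ⟨y, hy.1⟩ := he.injective (congr_arg Subtype.val h1)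
  exact congr_arg Subtype.val h2

/-- Balls packed in groups, the groups packed in a ball. -/
lemma Packs.comp {R : ℝ} {r : ι → ℝ} {t : κ → ℝ} (g : ι → κ) (ho : Packs n R t)
    (hi : ∀ j, Packs n (t j) (fun i : {i // g i = j} => r i)) : Packs n R r := by
  obtain ⟨φ, h1, h2, h3⟩ := ho
  choose ψ k1 k2 k3 using hi
  have hmem : ∀ i x, x ∈ closedCapBall n (r i) → ψ (g i) ⟨i, rfl⟩ x ∈ closedCapBall n (t (g i)) :=
    fun i x hx => le_of_lt (show capacity _ < t (g i) from k2 (g i) ⟨i, rfl⟩ hx)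
  refine ⟨fun i => φ (g i) ∘ ψ (g i) ⟨i, rfl⟩, fun i => ?_, fun i x hx => h2 (g i) (hmem i x hx), fun i j hij => ?_⟩
  · obtain ⟨V, hV, hφ⟩ := h1 (g i)
    obtain ⟨U, hU, hψ⟩ := k1 (g i) ⟨i, rfl⟩
    exact ⟨U ∩ ψ (g i) ⟨i, rfl⟩ ⁻¹' V, fun x hx => ⟨hU hx, hV (hmem i x hx)⟩, isSympEmbOn_comp hψ hφ⟩
  · dsimp only
    rw [Set.disjoint_left]
    rintro p ⟨x, hx, rfl⟩ ⟨y, hy, he⟩
    simp only [Function.comp_apply] at he
    by_cases hg : g i = g j
    · have key : ∀ (a : κ) (b : κ) (hb : g i = b) (hc : g j = b), a = b →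
          φ a (ψ b ⟨j, hc⟩ y) = φ a (ψ b ⟨i, hb⟩ x) → False := by
        intro a b hb hc hab h
        subst hab
        obtain ⟨V, hV, hφ⟩ := h1 a
        have hx' : x ∈ closedCapBall n (r i) := hx
        have mx : ψ a ⟨i, hb⟩ x ∈ V := hV (le_of_lt (show capacity _ < t a from k2 a ⟨i, hb⟩ hx))
        have my : ψ a ⟨j, hc⟩ y ∈ V := hV (le_of_lt (show capacity _ < t a from k2 a ⟨j, hc⟩ hy))
        have h' : (⟨_, my⟩ : V) = ⟨_, mx⟩ := hφ.2.2.2.injective h
        exact Set.disjoint_left.1 (k3 a (show (⟨i, hb⟩ : {l // g l = a}) ≠ ⟨j, hc⟩ from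
          fun e => hij (congr_arg Subtype.val e))) ⟨x, hx, rfl⟩ ⟨y, hy, congr_arg Subtype.val h'⟩
      have hcongr : ∀ (b : κ) (hb : g j = b), φ b (ψ b ⟨j, hb⟩ y) = φ (g j) (ψ (g j) ⟨j, rfl⟩ y) := by
        rintro b rfl; rfl
      exact key (g i) (g i) rfl hg.symm rfl ((hcongr (g i) hg.symm).trans he)
    · exact Set.disjoint_left.1 (h3 hg) ⟨_, hmem i x hx, rfl⟩ ⟨_, hmem j y hy, he⟩

lemma packs_subsingleton [Subsingleton ι] {R : ℝ} {r : ι → ℝ} (h : ∀ i, r i < R) : Packs n R r := by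
  refine ⟨fun _ x => x, fun i => ⟨Set.univ, Set.subset_univ _, isOpen_univ, contDiffOn_id,
    fun x _ u v => by simp, isOpenEmbedding_of_symp isOpen_univ contDiffOn_id (fun x _ u v => by simp)
      (Set.injOn_id _)⟩, fun i x hx => ?_, fun i j hij => absurd (Subsingleton.elim i j) hij⟩
  exact lt_of_le_of_lt (show capacity x ≤ r i from hx) (h i)

/-- Powers of `M` fit into bins. -/
lemma exists_bins [DecidableEq ι] {M L N : ℕ} (hM : 0 < M) (hN : 0 < N) (e : ι → ℕ) (s : Finset ι)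
    (hL : ∀ i ∈ s, e i ≤ L) (h : ∑ i ∈ s, M ^ e i ≤ N * M ^ L) :
    ∃ g : ι → Fin N, ∀ j, ∑ i ∈ s with g i = j, M ^ e i ≤ M ^ L := by
  induction s using Finset.strongInduction with
  | H s ih =>
    rcases s.eq_empty_or_nonempty with rfl | hne
    · exact ⟨fun _ => ⟨0, hN⟩, fun j => by simp⟩
    obtain ⟨a, ha, hmin⟩ := s.exists_min_image e hne
    have hsum := Finset.sum_erase_add s (fun i => M ^ e i) ha
    have hpos : 0 < M ^ e a := pow_pos hM _
    obtain ⟨g, hg⟩ := ih (s.erase a) (Finset.erase_ssubset ha) (fun i hi => hL i (Finset.mem_of_mem_erase hi))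
      (by lia)
    obtain ⟨j0, hj0⟩ : ∃ j, ∑ i ∈ s.erase a with g i = j, M ^ e i < M ^ L := by
      by_contra hc
      push Not at hc
      have := Finset.sum_fiberwise (s.erase a) g (fun i => M ^ e i)
      have h2 : ∑ j : Fin N, M ^ L ≤ ∑ j : Fin N, ∑ i ∈ s.erase a with g i = j, M ^ e i :=
        Finset.sum_le_sum fun j _ => hc j
      rw [this, Finset.sum_const, Finset.card_univ, Fintype.card_fin, smul_eq_mul] at h2
      lia
    have hdvd : M ^ e a ∣ ∑ i ∈ s.erase a with g i = j0, M ^ e i := Finset.dvd_sum fun i hi =>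
      pow_dvd_pow M (hmin i (Finset.mem_of_mem_erase (Finset.mem_filter.1 hi).1))
    have hdL : M ^ e a ∣ M ^ L := pow_dvd_pow M (hL a ha)
    refine ⟨Function.update g a j0, fun j => ?_⟩
    have hfe : ((s.erase a).filter fun i => Function.update g a j0 i = j) = (s.erase a).filter fun i => g i = j :=
      Finset.filter_congr fun i hi => by rw [Function.update_of_ne (Finset.ne_of_mem_erase hi)]
    rw [← Finset.insert_erase ha, Finset.filter_insert]
    by_cases hj : j0 = j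
    · subst hj
      rw [if_pos (Function.update_self ..), Finset.sum_insert (by simp), hfe]
      obtain ⟨p, hp⟩ := hdvd
      obtain ⟨q, hq⟩ := hdL
      rw [hp, hq] at hj0
      have hpq : p + 1 ≤ q := Nat.lt_of_mul_lt_mul_left hj0
      rw [hp, hq]
      nlinarith
    · rw [if_neg (by rw [Function.update_self]; exact hj), hfe]
      exact hg j

lemma exists_between' [Finite ι] {c : ι → ℝ} {s : ℝ} (hs : 0 < s) (h : ∀ i, c i < s) :
    ∃ t, 0 < t ∧ t < s ∧ ∀ i, c i < t := by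
  have e1 : ∀ᶠ t in 𝓝 s, 0 < t ∧ ∀ i, c i < t :=
    (eventually_gt_nhds hs).and (eventually_all.2 fun i => eventually_gt_nhds (h i))
  have e0 : ∀ᶠ t in 𝓝[<] s, t ∈ Set.Iio s := self_mem_nhdsWithin
  obtain ⟨t, ht, h0, h1⟩ := (e0.and (e1.filter_mono nhdsWithin_le_nhds)).exists
  exact ⟨t, h0, ht, h1⟩

/-- Dyadic packing. -/
lemma packs_dyadic (hn : 1 ≤ n) : ∀ (L : ℕ) (ι : Type) [Fintype ι] (r : ι → ℝ) (ℓ : ι → ℕ) (s : ℝ),
    0 < s → (∀ i, 0 < r i) → (∀ i, ℓ i ≤ L) → (∀ i, r i * 2 ^ ℓ i < s) →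
    ∑ i, (2 ^ n) ^ (L - ℓ i) ≤ (2 ^ n) ^ L → Packs n s r := by
  intro L
  induction L with
  | zero =>
    intro ι _ r ℓ s hs hr hL hlt hsum
    have : Subsingleton ι := Fintype.card_le_one_iff_subsingleton.1 (by simpa using hsum)
    exact packs_subsingleton fun i => by
      have := hlt i; have := hr i; simpa [Nat.le_zero.1 (hL i)] using hlt i
  | succ L ih =>
    intro ι _ r ℓ s hs hr hL hlt hsum
    classical
    by_cases h0 : ∃ a, ℓ a = 0
    · obtain ⟨a, ha⟩ := h0
      have : Subsingleton ι := by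
        refine subsingleton_of_forall_eq a fun b => ?_
        by_contra hb
        have hp := Finset.sum_le_sum_of_subset (f := fun i => (2 ^ n) ^ (L + 1 - ℓ i)) (Finset.subset_univ {a, b})
        rw [Finset.sum_pair (Ne.symm hb), ha] at hp
        have : 0 < (2 ^ n) ^ (L + 1 - ℓ b) := by positivity
        simp only [Nat.sub_zero] at hp
        lia
      exact packs_subsingleton fun i => lt_of_le_of_lt (le_mul_of_one_le_right (hr i).le (one_le_pow₀ one_le_two)) (hlt i)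
    push Not at h0
    obtain ⟨g, hg⟩ := exists_bins (M := 2 ^ n) (L := L) (N := 2 ^ n) (by positivity) (by positivity)
      (fun i => L + 1 - ℓ i) Finset.univ (fun i _ => by have := h0 i; lia) (by rwa [← pow_succ'])
    obtain ⟨t, ht0, hts, ht⟩ := exists_between' hs hlt
    refine Packs.comp (t := fun _ : Fin (2 ^ n) => t / 2) g ?_ fun j => ?_
    · refine hasPacking_iff.1 (hasPacking_grid (m := 2) hn (by norm_num) (by simp) (fun _ => by linarith)
        ⟨0, by positivity⟩ (by linarith) (fun i _ => by linarith) fun i _ => by push_cast; linarith)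
    · refine ih {i // g i = j} (fun i => r i) (fun i => ℓ i - 1) (t / 2) (by linarith) (fun i => hr i)
        (fun i => by have := hL i; lia) (fun i => ?_) ?_
      · obtain ⟨q, hq⟩ : ∃ q, ℓ i = q + 1 := ⟨ℓ i - 1, by have := h0 i; lia⟩
        have := ht i
        rw [hq, pow_succ] at this
        simp only [hq, Nat.add_sub_cancel]
        linarith
      · refine le_trans (le_of_eq ?_) (hg j)
        rw [Finset.sum_subtype (p := fun i => g i = j) (Finset.univ.filter fun i => g i = j) (by simp)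
          (fun i => (2 ^ n) ^ (L + 1 - ℓ i))]
        exact Finset.sum_congr rfl fun i _ => by have := h0 i; congr 1; lia

/-- Groups of dyadically small balls in `N` balls of size `w`. -/
lemma packs_bins (hn : 1 ≤ n) [Fintype ι] {ι' : Type} (eι : ι ≃ ι') {N : ℕ} (hN : 0 < N) {w : ℝ} (hw : 0 < w)
    {r : ι → ℝ} (hr : ∀ i, 0 < r i) (hlt : ∀ i, r i < w) (hsum : (2 ^ n) * ∑ i, r i ^ n ≤ N * w ^ n) :
    ∃ (g : ι → Fin N) (w' : ℝ), 0 < w' ∧ w' < w ∧ ∀ j, Packs n w' (fun i : {i // g i = j} => r i) := by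
  classical
  have hex : ∀ i, ∃ l : ℕ, r i * 2 ^ l < w ∧ w ≤ r i * 2 ^ (l + 1) := by
    intro i
    obtain ⟨l, hl⟩ := exists_nat_pow_near (x := w / r i) (y := (2 : ℝ)) ((one_le_div (hr i)).2 (hlt i).le) one_lt_two
    rw [le_div_iff₀' (hr i), div_lt_iff₀' (hr i)] at hl
    rcases hl.1.lt_or_eq with h | h
    · exact ⟨l, h, hl.2.le⟩
    · cases l with
      | zero => simp at h; exact absurd h (hlt i).ne
      | succ l => exact ⟨l, lt_of_lt_of_eq (by rw [pow_succ]; linarith [mul_pos (hr i) (pow_pos (two_pos : (0 : ℝ) < 2) l)]) h,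
          h.symm.le⟩
  choose ℓ h1 h2 using hex
  let L := Finset.univ.sup ℓ
  have hL : ∀ i, ℓ i ≤ L := fun i => Finset.le_sup (Finset.mem_univ i)
  have hkey : ∑ i, (2 ^ n) ^ (L - ℓ i) ≤ N * (2 ^ n) ^ L := by
    have : (∑ i, ((2 : ℝ) ^ n) ^ (L - ℓ i)) * w ^ n ≤ ((N : ℝ) * (2 ^ n) ^ L) * w ^ n := by
      calc (∑ i, ((2 : ℝ) ^ n) ^ (L - ℓ i)) * w ^ n
          ≤ ∑ i, ((2 : ℝ) ^ n) ^ L * (2 ^ n * r i ^ n) := by
            rw [Finset.sum_mul]
            refine Finset.sum_le_sum fun i _ => ?_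
            calc ((2 : ℝ) ^ n) ^ (L - ℓ i) * w ^ n
                ≤ ((2 : ℝ) ^ n) ^ (L - ℓ i) * (r i * 2 ^ (ℓ i + 1)) ^ n := by gcongr; exact h2 i
              _ = ((2 : ℝ) ^ n) ^ L * (2 ^ n * r i ^ n) := by
                obtain ⟨q, hq⟩ : ∃ q, L = ℓ i + q := ⟨L - ℓ i, by have := hL i; lia⟩
                rw [hq, Nat.add_sub_cancel_left, pow_add, pow_succ, mul_pow, mul_pow, ← pow_mul, ← pow_mul, ← pow_mul]
                ring
        _ ≤ ((N : ℝ) * (2 ^ n) ^ L) * w ^ n := by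
            rw [← Finset.mul_sum, ← Finset.mul_sum]
            nlinarith [mul_le_mul_of_nonneg_left hsum (pow_nonneg (pow_nonneg (zero_le_two : (0 : ℝ) ≤ 2) n) L)]
    have h' := le_of_mul_le_mul_right this (by positivity)
    exact_mod_cast h'
  obtain ⟨g, hg⟩ := exists_bins (M := 2 ^ n) (L := L) (N := N) (by positivity) hN (fun i => L - ℓ i) Finset.univ
    (fun i _ => Nat.sub_le _ _) hkey
  obtain ⟨t, ht0, hts, ht⟩ := exists_between' hw h1
  refine ⟨g, t, ht0, hts, fun j => ?_⟩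
  let e : {i // g i = j} ≃ {i' : ι' // g (eι.symm i') = j} := eι.subtypeEquiv fun i => by simp
  have : Fintype {i' : ι' // g (eι.symm i') = j} := Fintype.ofEquiv _ e
  have hp : Packs n t (fun i' : {i' : ι' // g (eι.symm i') = j} => r (e.symm i')) := by
    refine packs_dyadic hn L _ _ (fun i' => ℓ (e.symm i')) t ht0 (fun i => hr _) (fun i => hL _) (fun i => ht _) ?_
    refine le_trans (le_of_eq ?_) (hg j)
    rw [Finset.sum_subtype (p := fun i => g i = j) (Finset.univ.filter fun i => g i = j) (by simp)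
      (fun i => (2 ^ n) ^ (L - ℓ i))]
    exact e.symm.sum_comp (fun i : {i // g i = j} => (2 ^ n) ^ (L - ℓ i))
  simpa using hp.reindex e.toEmbedding

lemma frustum_count {n m : ℕ} (hn : 1 ≤ n) (hm : 1 ≤ m) : m ^ (n - 1) + (m - 1) ^ n ≤ m ^ n := by
  obtain ⟨q, rfl⟩ : ∃ q, n = q + 1 := ⟨n - 1, by lia⟩
  simp only [Nat.add_sub_cancel, pow_succ]
  have := Nat.mul_le_mul_right (m - 1) (Nat.pow_le_pow_left (Nat.sub_le m 1) q)
  have : m ^ q * m = m ^ q * (m - 1) + m ^ q := by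
    rw [← Nat.mul_succ]; congr 1; lia
  lia

/-- Any number of balls. -/
theorem hasPacking_const {n k : ℕ} (hn : 1 ≤ n) {R : ℝ} {r : Fin k → ℝ} (hR : 0 < R) (hr : ∀ i, 0 < r i)
    (i0 : Fin k) (hmax : ∀ i, r i ≤ r i0) (h0 : r i0 < R) (hp : ∀ i, i ≠ i0 → r i + r i0 < R)
    (hv : ((n : ℝ) * 4 ^ n) * ∑ i ∈ Finset.univ.erase i0, r i ^ n ≤ R ^ n - r i0 ^ n) : HasPacking n R r := by
  classical
  set a := r i0
  have ha : 0 < a := hr i0
  set w := min (R / 2) (R - a)
  have hw : 0 < w := lt_min (by linarith) (by linarith)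
  have hw1 : w ≤ R / 2 := min_le_left _ _
  have hw2 : w ≤ R - a := min_le_right _ _
  set m := ⌊R / w⌋₊
  have hm2 : 2 ≤ m := Nat.le_floor (by rw [le_div_iff₀ hw]; push_cast; linarith)
  have hmw : (m : ℝ) * w ≤ R := by rw [← le_div_iff₀ hw]; exact Nat.floor_le (by positivity)
  have hmw' : R < ((m : ℝ) + 1) * w := by rw [← div_lt_iff₀ hw]; exact Nat.lt_floor_add_one _
  set N := m ^ (n - 1)
  have hN : 0 < N := pow_pos (by lia) _
  have hbound : R ^ n - a ^ n ≤ (n : ℝ) * 2 ^ n * (N * w ^ n) := by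
    have h1 : R ^ n - a ^ n ≤ (n : ℝ) * (2 * w) * (2 * m * w) ^ (n - 1) := by
      have hge : R - a ≤ 2 * w := by
        rcases le_total (R / 2) (R - a) with h | h
        · rw [show w = R / 2 from min_eq_left h]; linarith
        · rw [show w = R - a from min_eq_right h]; linarith
      have hR2 : R ≤ 2 * m * w := by
        have : (1 : ℝ) ≤ m := Nat.one_le_cast.2 (by lia)
        nlinarith
      have hgeom := (geom_sum₂_mul R a n).symm
      rw [hgeom]
      have hs : ∑ i ∈ Finset.range n, R ^ i * a ^ (n - 1 - i) ≤ (n : ℝ) * (2 * m * w) ^ (n - 1) := by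
        refine (Finset.sum_le_card_nsmul _ _ ((2 * (m : ℝ) * w) ^ (n - 1)) fun i hi => ?_).trans (le_of_eq (by simp))
        have hi' := Finset.mem_range.1 hi
        calc R ^ i * a ^ (n - 1 - i) ≤ (2 * m * w) ^ i * (2 * m * w) ^ (n - 1 - i) := by
              gcongr
              linarith
          _ = _ := by rw [← pow_add]; congr 1; lia
      have hs0 : 0 ≤ ∑ i ∈ Finset.range n, R ^ i * a ^ (n - 1 - i) :=
        Finset.sum_nonneg fun i _ => by positivity
      calc (∑ i ∈ Finset.range n, R ^ i * a ^ (n - 1 - i)) * (R - a)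
          ≤ ((n : ℝ) * (2 * m * w) ^ (n - 1)) * (2 * w) := mul_le_mul hs hge (by linarith) (by positivity)
        _ = _ := by ring
    refine h1.trans (le_of_eq ?_)
    obtain ⟨q, rfl⟩ : ∃ q, n = q + 1 := ⟨n - 1, by lia⟩
    simp only [N, Nat.add_sub_cancel]
    push_cast
    rw [mul_pow, mul_pow, pow_succ, pow_succ]
    ring
  let ι := {i : Fin k // i ≠ i0}
  have hsum : (2 : ℝ) ^ n * ∑ i : ι, r i ^ n ≤ N * w ^ n := by
    rw [← Finset.sum_subtype (Finset.univ.erase i0) (by simp) (fun i => r i ^ n)]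
    have h4 : (4 : ℝ) ^ n = 2 ^ n * 2 ^ n := by rw [← mul_pow]; norm_num
    have hc : (0 : ℝ) < (n : ℝ) * 2 ^ n := by positivity
    rw [h4] at hv
    nlinarith [mul_pos hc hc]
  have hlt : ∀ i : ι, r i < w := fun i => lt_min (by linarith [hp i i.2, hmax i]) (by linarith [hp i i.2])
  obtain ⟨g, w', hw'0, hw', hg⟩ := packs_bins hn (Equiv.refl ι) hN hw (fun i => hr i) hlt hsum
  obtain ⟨a', ha', ha'R, ha'w⟩ : ∃ a', a < a' ∧ a' < R ∧ w' + a' < R :=
    ⟨(a + (R - w')) / 2, by linarith, by linarith, by linarith⟩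
  let t : Option (Fin N) → ℝ := fun o => o.elim a' fun _ => w'
  let e := Fintype.equivFin (Option (Fin N))
  have houter : Packs n R t := by
    have hcard : Fintype.card (Option (Fin N)) + (m - 1) ^ n ≤ m ^ n + 1 := by
      have := frustum_count hn (show 1 ≤ m by lia)
      simp only [Fintype.card_option, Fintype.card_fin, N]
      lia
    have h := hasPacking_grid (R := R) (r := fun l => t (e.symm l)) hn (by lia) hcard (fun l => by
      rcases e.symm l with _ | j <;> simp [t, hw'0]; linarith) (e none) (by simp [t, ha'R]) (fun l hl => ?_) (fun l hl => ?_)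
    · simpa using (hasPacking_iff.1 h).reindex e.toEmbedding
    all_goals
      rcases he : e.symm l with _ | j
      · exact absurd (by rw [← he, Equiv.apply_symm_apply]) hl
    · simp [t]; linarith
    · simp [t]; nlinarith [mul_lt_mul_of_pos_left hw' (show (0 : ℝ) < m from Nat.cast_pos.2 (by lia))]
  refine hasPacking_iff.2 (Packs.comp (t := t) (fun i => if h : i = i0 then none else some (g ⟨i, h⟩)) houter ?_)
  rintro (_ | j)
  · have : Subsingleton {i : Fin k // (if h : i = i0 then none else some (g ⟨i, h⟩)) = none} := by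
      refine ⟨fun x y => Subtype.ext ?_⟩
      have key : ∀ i, (if h : i = i0 then none else some (g ⟨i, h⟩)) = (none : Option (Fin N)) → i = i0 := by
        intro i hi; by_contra h; simp [h] at hi
      rw [key _ x.2, key _ y.2]
    refine packs_subsingleton fun x => ?_
    exact lt_of_le_of_lt (hmax x.1) ha'
  · have hne : ∀ i, (if h : i = i0 then none else some (g ⟨i, h⟩)) = some j → ∃ h : i ≠ i0, g ⟨i, h⟩ = j := by
      intro i hi
      by_cases h : i = i0
      · simp [h] at hi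
      · exact ⟨h, by simpa [h] using hi⟩
    let emb : {i : Fin k // (if h : i = i0 then none else some (g ⟨i, h⟩)) = some j} ↪ {i : ι // g i = j} :=
      ⟨fun x => ⟨⟨x.1, (hne x.1 x.2).1⟩, (hne x.1 x.2).2⟩, fun x y h => Subtype.ext (congr_arg (fun q : {i : ι // g i = j} => (q.1 : Fin k)) h)⟩
    exact (hg j).reindex emb

end Vale.Agent.P209
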