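import Vale.Agent.P209.Recursion

/-!
How many cells of a fine grid a piece meets: at most the volume of a slightly larger simplex.
-/

namespace Vale.Agent.P209

variable {n m M : ℕ}

/-- A point of a cell lies in at most `J ^ n` cells of an integral translate of the `J`-simplex. -/
lemma card_cells_le {σ : Equiv.Perm (Fin n)} (O : Fin n → ℤ) (J : ℕ) (C : Finset (Fin n → Fin m))
    (hC : ∀ c ∈ C, ∃ f g : Fin n → ℝ, IsChain (J : ℝ) f ∧ IsChain 1 g ∧
      ∀ i, ((c (Tuple.sort c i) : ℕ) : ℝ) + g (Tuple.sort c i) = (O i : ℝ) + f (σ i)) :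
    C.card ≤ J ^ n := by
  classical
  have key : ∀ c ∈ C, ∃ e : Fin n → Fin J, σ.symm.trans (Tuple.sort c) = Tuple.sort e ∧
      ∀ i, ((c (Tuple.sort c i) : ℕ) : ℤ) = O i + ((e (Tuple.sort c i) : ℕ) : ℤ) := by
    intro c hc
    obtain ⟨f, g, hf, hg, he⟩ := hC c hc
    set τ := Tuple.sort c with hτ
    let z : Fin n → ℤ := fun a => ((c a : ℕ) : ℤ) - O (τ.symm a)
    have hz : ∀ a, (z a : ℝ) + g a = f (σ (τ.symm a)) := by
      intro a
      have := he (τ.symm a)
      rw [Equiv.apply_symm_apply] at this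
      simp only [z, Int.cast_sub, Int.cast_natCast]
      linarith
    have hz0 : ∀ a, 0 ≤ z a := fun a => by
      by_contra h
      have : (z a : ℝ) ≤ -1 := by exact_mod_cast (show z a ≤ -1 by omega)
      linarith [hz a, (hf.2 (σ (τ.symm a))).1, (hg.2 a).2]
    have hzJ : ∀ a, z a < J := fun a => by
      by_contra h
      have : (J : ℝ) ≤ z a := by exact_mod_cast (show (J : ℤ) ≤ z a by omega)
      linarith [hz a, (hf.2 (σ (τ.symm a))).2, (hg.2 a).1]
    refine ⟨fun a => ⟨(z a).toNat, by have := hz0 a; have := hzJ a; omega⟩, ?_, fun i => ?_⟩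
    · rw [Tuple.eq_sort_iff]
      have hf' : ∀ b, (z (σ.symm.trans τ b) : ℝ) + g (σ.symm.trans τ b) = f b := fun b => by
        simpa using hz (σ.symm.trans τ b)
      refine ⟨fun b b' hb => ?_, fun b b' hb heq => ?_⟩
      · rcases hb.lt_or_eq with hlt | rfl
        · have h1 := hf.1 hlt
          rw [← hf' b, ← hf' b'] at h1
          simp only [Function.comp_apply, Fin.mk_le_mk]
          refine Int.toNat_le_toNat ?_
          by_contra h
          have : (z (σ.symm.trans τ b') : ℝ) + 1 ≤ z (σ.symm.trans τ b) := by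
            exact_mod_cast (show z (σ.symm.trans τ b') + 1 ≤ z (σ.symm.trans τ b) by omega)
          linarith [(hg.2 (σ.symm.trans τ b)).1, (hg.2 (σ.symm.trans τ b')).2]
        · exact le_rfl
      · have h1 := hf.1 hb
        rw [← hf' b, ← hf' b'] at h1
        have e := congr_arg Fin.val heq
        simp only at e
        have : z (σ.symm.trans τ b) = z (σ.symm.trans τ b') := by
          have := hz0 (σ.symm.trans τ b); have := hz0 (σ.symm.trans τ b'); omega
        rw [this, add_lt_add_iff_left] at h1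
        exact hg.1.lt_iff_lt.1 h1
    · have := hz0 (τ i)
      simp only [z, Equiv.symm_apply_apply] at this ⊢
      rw [Int.toNat_of_nonneg this]
      ring
  choose e h1 h2 using key
  rcases C.eq_empty_or_nonempty with h0 | ⟨c0, hc0⟩
  · simp [h0]
  refine le_trans (Finset.card_le_card_of_injOn (fun c => if h : c ∈ C then e c h else e c0 hc0)
    (t := Finset.univ) (fun _ _ => Finset.mem_univ _) ?_) (by simp)
  intro c hc c' hc' he
  simp only [Finset.mem_coe] at hc hc'
  simp only [dif_pos hc, dif_pos hc'] at he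
  have hs : Tuple.sort c = Tuple.sort c' := by
    have := (h1 c hc).trans ((congr_arg Tuple.sort he).trans (h1 c' hc').symm)
    ext i
    have := Equiv.congr_fun this (σ i)
    simpa using congr_arg Fin.val this
  funext a
  obtain ⟨i, rfl⟩ : ∃ i, Tuple.sort c i = a := ⟨_, Equiv.apply_symm_apply _ a⟩
  have := h2 c hc i
  have h' := h2 c' hc' i
  rw [← hs, ← he] at h'
  exact Fin.ext (by omega)

open Classical in
/-- The cells of mesh `h` that meet a piece. -/
noncomputable def hit (m : ℕ) (h D w t : ℝ) (c : Fin n → Fin M) : Finset (Fin n → Fin m) :=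
  Finset.univ.filter fun c' => ∃ f g : Fin n → ℝ, IsChain w f ∧ (∀ i, f i < t) ∧ IsChain h g ∧
    piecePt D w c f = piecePt 0 h c' g

lemma card_hit_le {h D w t : ℝ} (hh : 0 < h) (c : Fin n → Fin M) {J : ℕ}
    (hJ : t / h + 2 * n + 1 ≤ J) : (hit m h D w t c).card ≤ J ^ n := by
  classical
  let φ : Fin n → ℝ := fun i => pieceShift D w c i / h
  refine card_cells_le (σ := Tuple.sort c)
    (fun i => ⌊φ i⌋ - 2 * ((Tuple.sort c i : ℕ) : ℤ)) J _ fun c' hc' => ?_
  simp only [hit, Finset.mem_filter, Finset.mem_univ, true_and] at hc'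
  obtain ⟨f, g, hf, hft, hg, he⟩ := hc'
  refine ⟨fun b => f b / h + Int.fract (φ ((Tuple.sort c).symm b)) + 2 * (b : ℕ), fun a => g a / h,
    ⟨fun b b' hb => ?_, fun b => ⟨?_, ?_⟩⟩,
    ⟨fun a a' ha => div_lt_div_of_pos_right (hg.1 ha) hh,
      fun a => ⟨div_pos (hg.2 a).1 hh, (div_lt_one hh).2 (hg.2 a).2⟩⟩, fun i => ?_⟩
  · have : ((b : ℕ) : ℝ) + 1 ≤ (b' : ℕ) := by exact_mod_cast hb
    have h1 := (Int.fract_lt_one (φ ((Tuple.sort c).symm b)))
    have h2 := (Int.fract_nonneg (φ ((Tuple.sort c).symm b')))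
    have h3 := div_lt_div_of_pos_right (hf.1 hb) hh
    simp only
    linarith
  · have h2 := (Int.fract_nonneg (φ ((Tuple.sort c).symm b)))
    have := div_pos (hf.2 b).1 hh
    positivity
  · have h1 := (Int.fract_lt_one (φ ((Tuple.sort c).symm b)))
    have : ((b : ℕ) : ℝ) + 1 ≤ n := by exact_mod_cast b.2
    have h3 := div_lt_div_of_pos_right (hft b) hh
    linarith
  · have := congr_fun he i
    simp only [piecePt, pieceShift, zero_add] at this
    simp only [Equiv.symm_apply_apply, Int.fract, φ, pieceShift]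
    push_cast
    field_simp
    linarith

end Vale.Agent.P209
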