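import Vale.Agent.P209.MixedGrid

/-!
The combined statement for P209.
-/

namespace Vale.Agent.P209

/-- Sufficiency in Conjecture A: exactly for `k ≤ 2^n`, for the grid range, for every `k` up to
a constant that depends only on the dimension, and up to any constant above one for small balls,
also together with at most `2^n` balls of any size. -/
def ConjectureASufficiencyMixed : Prop :=
  SufficiencyUpToTwoPowN ∧ SufficiencyMixed ∧
  (∀ n k : ℕ, 1 ≤ n → ∀ (R : ℝ) (r : Fin k → ℝ) (i0 : Fin k), 0 < R → (∀ i, 0 < r i) →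
      (∀ i, r i ≤ r i0) → r i0 < R → (∀ i j, i ≠ j → r i + r j < R) →
      ((n : ℝ) * 4 ^ n) * ∑ i ∈ Finset.univ.erase i0, r i ^ n ≤ R ^ n - r i0 ^ n → HasPacking n R r) ∧
  ∀ n : ℕ, 1 ≤ n → ∀ ε : ℝ, 0 < ε → ∃ δ : ℝ, 0 < δ ∧
    ∀ (k : ℕ) (R : ℝ) (r : Fin k → ℝ), 0 < R → (∀ i, 0 < r i ∧ r i < δ * R) →
      (1 + ε) * ∑ i, r i ^ n ≤ R ^ n → HasPacking n R r

theorem conjectureASufficiencyMixed : ConjectureASufficiencyMixed :=
  ⟨sufficiencyUpToTwoPowN, sufficiencyMixed, fun _ _ hn _ _ i0 hR hr hmax h0 hp hv =>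
    hasPacking_const hn hR hr i0 hmax h0 (fun i hi => hp i i0 hi) hv,
    fun _ hn _ hε => hasPacking_small hn hε⟩

end Vale.Agent.P209
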