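import Mathlib

/-!
Definitions for symplectic packings of a ball by finitely many balls (P209).
-/

namespace Vale.Agent.P209

open scoped ContDiff

variable {n : ℕ}

/-- The standard symplectic form on `ℂ^n`. -/
def omega0 (u v : Fin n → ℂ) : ℝ := ∑ j, ((u j).re * (v j).im - (u j).im * (v j).re)

/-- The capacity function `π * Σ |z_j|^2`. -/
noncomputable def capacity (z : Fin n → ℂ) : ℝ := Real.pi * ∑ j, ‖z j‖ ^ 2

/-- The closed ball of capacity `r`. -/
def closedCapBall (n : ℕ) (r : ℝ) : Set (Fin n → ℂ) := {z | capacity z ≤ r}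

/-- The open ball of capacity `r`. -/
def openCapBall (n : ℕ) (r : ℝ) : Set (Fin n → ℂ) := {z | capacity z < r}

/-- A smooth symplectic embedding defined on the open set `U`. -/
def IsSympEmbOn (U : Set (Fin n → ℂ)) (φ : (Fin n → ℂ) → (Fin n → ℂ)) : Prop :=
  IsOpen U ∧ ContDiffOn ℝ ∞ φ U ∧
    (∀ x ∈ U, ∀ u v, omega0 (fderiv ℝ φ x u) (fderiv ℝ φ x v) = omega0 u v) ∧
    Topology.IsOpenEmbedding (fun x : U => φ x)

/-- The closed balls of capacities `r i` embed symplectically, with pairwise disjoint images, in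
the open ball of capacity `R`. -/
def HasPacking (n : ℕ) (R : ℝ) {k : ℕ} (r : Fin k → ℝ) : Prop :=
  ∃ φ : Fin k → (Fin n → ℂ) → (Fin n → ℂ),
    (∀ i, ∃ U, closedCapBall n (r i) ⊆ U ∧ IsSympEmbOn U (φ i)) ∧
    (∀ i, Set.MapsTo (φ i) (closedCapBall n (r i)) (openCapBall n R)) ∧
    Pairwise fun i j => Disjoint (φ i '' closedCapBall n (r i)) (φ j '' closedCapBall n (r j))

end Vale.Agent.P209
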