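import Vale.Agent.P209.Simplices

/-!
Packing theorems for P209.
-/

namespace Vale.Agent.P209

open scoped ContDiff Topology
open Complex (normSq)
open Filter

variable {n m : ℕ}

lemma capacity_eq (z : Fin n → ℂ) : capacity z = ∑ j, act z j := by
  simp [capacity, act, Complex.sq_norm, Finset.mul_sum]

lemma omega0_single {L : (Fin n → ℂ) →L[ℝ] Fin n → ℂ} (h : ∀ u v, omega0 (L u) (L v) = omega0 u v) :
    Function.Injective L := by
  refine (injective_iff_map_eq_zero L).2 fun u hu => funext fun j => ?_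
  have h1 := h u (Pi.single j 1)
  have h2 := h u (Pi.single j Complex.I)
  simp [omega0, hu, Pi.single_apply, apply_ite Complex.re, apply_ite Complex.im,
    Finset.sum_ite_eq'] at h1 h2
  exact Complex.ext h2.symm h1

lemma isOpenEmbedding_of_symp {U : Set (Fin n → ℂ)} {φ : (Fin n → ℂ) → (Fin n → ℂ)} (hU : IsOpen U)
    (hs : ContDiffOn ℝ ∞ φ U) (hω : ∀ x ∈ U, ∀ u v, omega0 (fderiv ℝ φ x u) (fderiv ℝ φ x v) = omega0 u v)
    (hi : Set.InjOn φ U) : Topology.IsOpenEmbedding fun x : U => φ x := by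
  refine Topology.IsOpenEmbedding.of_continuous_injective_isOpenMap hs.continuousOn.restrict
    (fun a b h => Subtype.ext (hi a.2 b.2 h)) ?_
  rw [isOpenMap_iff_nhds_le]
  intro x
  have hd := ((hs.contDiffAt (hU.mem_nhds x.2)).hasStrictFDerivAt (by simp)).map_nhds_eq_of_surj
    (LinearMap.range_eq_top.2 ((LinearMap.injective_iff_surjective).1 (omega0_single (hω x x.2))))
  rw [← hd, ← map_nhds_subtype_coe_eq_nhds x.2 (hU.mem_nhds x.2), Filter.map_map]
  rfl

/-- A ball goes into the part of `(ℂ*)^n` over an open simplex of slightly larger size. -/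
lemma exists_ball_map {r δ : ℝ} (hn : 0 < n) (hr : 0 ≤ r) (hδ : 0 < δ) :
    ∃ U : Set (Fin n → ℂ), ∃ ψ : (Fin n → ℂ) → (Fin n → ℂ), IsOpen U ∧ closedCapBall n r ⊆ U ∧
      ContDiff ℝ ∞ ψ ∧ Function.Injective ψ ∧
      (∀ x u v, omega0 (fderiv ℝ ψ x u) (fderiv ℝ ψ x v) = omega0 u v) ∧
      ∀ x ∈ U, (∀ j, ψ x j ≠ 0) ∧ ∑ j, act (ψ x) j < r + δ := by
  set L := Real.sqrt ((r + δ / 2) / Real.pi)
  have hL : 0 < L := Real.sqrt_pos.2 (by positivity)
  have hn' : (0 : ℝ) < n := Nat.cast_pos.2 hn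
  obtain ⟨f, hf, hfb⟩ := exists_planar hL (ε := δ / (2 * Real.pi * n)) (by positivity)
  refine ⟨{x | capacity x < r + δ / 2}, fun x j => f (x j), ?_, fun x hx => ?_, ?_, ?_, ?_, ?_⟩
  · exact isOpen_lt (by unfold capacity; fun_prop) continuous_const
  · have h : capacity x ≤ r := hx
    show capacity x < r + δ / 2
    linarith
  · exact contDiff_pi.2 fun j => hf.smooth.comp (contDiff_apply ℝ ℂ j)
  · exact fun x y h => funext fun j => hf.inj (congr_fun h j)
  · intro x u v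
    have hd : HasFDerivAt (fun y : Fin n → ℂ => fun j => f (y j)) _ x := hasFDerivAt_pi.2 fun j =>
      ((hf.smooth.differentiable (by simp) (x j)).hasFDerivAt).comp x
        (hasFDerivAt_apply (𝕜 := ℝ) (F' := fun _ : Fin n => ℂ) j x)
    simp only [omega0, hd.fderiv]
    exact Finset.sum_congr rfl fun j _ => hf.area_eq (x j) (u j) (v j)
  · intro x hx
    have hx' : Real.pi * ∑ j, ‖x j‖ ^ 2 < r + δ / 2 := hx
    have hb : ∀ j, ‖x j‖ < L := fun j => by
      refine Real.lt_sqrt_of_sq_lt ?_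
      rw [lt_div_iff₀ Real.pi_pos]
      have := Finset.single_le_sum (f := fun j => ‖x j‖ ^ 2) (fun i _ => sq_nonneg _) (Finset.mem_univ j)
      nlinarith [Real.pi_pos, mul_le_mul_of_nonneg_left this Real.pi_pos.le]
    refine ⟨fun j => (hfb _ (hb j)).1, ?_⟩
    have h1 : ∑ j, ‖f (x j)‖ ^ 2 ≤ ∑ j, (‖x j‖ ^ 2 + δ / (2 * Real.pi * n)) :=
      Finset.sum_le_sum fun j _ => (hfb _ (hb j)).2
    rw [Finset.sum_add_distrib, Finset.sum_const, Finset.card_univ, Fintype.card_fin, nsmul_eq_mul] at h1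
    have h2 : Real.pi * ((n : ℝ) * (δ / (2 * Real.pi * n))) = δ / 2 := by field_simp
    simp only [act, ← Complex.sq_norm, ← Finset.mul_sum]
    nlinarith [mul_le_mul_of_nonneg_left h1 Real.pi_pos.le]

/-- One piece of the packing. -/
lemma exists_piece {R r δ D w : ℝ} (hn : 0 < n) (hr : 0 ≤ r) (hδ : 0 < δ) (hw : r + δ ≤ w)
    (hD : 0 ≤ D) (c : Fin n → Fin m) (hR : ∀ f, IsChain w f → (∀ i, f i < r + δ) →
      ∀ i, piecePt D w c f i < R) :
    ∃ U, ∃ φ : (Fin n → ℂ) → (Fin n → ℂ), closedCapBall n r ⊆ U ∧ IsSympEmbOn U φ ∧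
      Set.MapsTo φ (closedCapBall n r) (openCapBall n R) ∧
      ∀ x ∈ U, ∃ f, IsChain w f ∧ (∀ i, f i < r + δ) ∧ cum (act (φ x)) = piecePt D w c f := by
  obtain ⟨U, ψ, hU, hsub, hψs, hψi, hψω, hψ⟩ := exists_ball_map hn hr hδ
  set σ := Tuple.sort c
  set A := pieceA σ
  set B := pieceB σ
  set b := pieceV (pieceShift D w c)
  have key : ∀ x ∈ U, ψ x ∈ monoDom A b ∧ ∃ f, IsChain w f ∧ (∀ i, f i < r + δ) ∧
      cum (act' A b (ψ x)) = piecePt D w c f := by
    intro x hx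
    obtain ⟨h0, hsum⟩ := hψ x hx
    have hpos : ∀ j, 0 < act (ψ x) j := fun j => mul_pos Real.pi_pos (Complex.normSq_pos.2 (h0 j))
    have hlt : ∀ i, cum (act (ψ x)) i < r + δ := fun i => (cum_le_sum hpos i).trans_lt hsum
    have hf : IsChain w (cum (act (ψ x))) :=
      ⟨cum_strictMono hpos, fun i => ⟨cum_pos hpos i, (hlt i).trans_le hw⟩⟩
    have hcum : cum (act' A b (ψ x)) = piecePt D w c (cum (act (ψ x))) :=
      funext fun i => cum_act' σ _ _ i
    refine ⟨⟨h0, fun j => pos_of_cum (fun i => ?_) ?_ j⟩, _, hf, hlt, hcum⟩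
    · rw [hcum]
      exact piecePt_pos hD (by linarith) (fun i => (hf.2 i).1) i
    · rw [hcum]; exact piecePt_strictMono hf
  have hφs : ContDiffOn ℝ ∞ (monoMap A B b ∘ ψ) U := fun x hx =>
    ((contDiffAt_monoMap (key x hx).1).comp x hψs.contDiffAt).contDiffWithinAt
  have hφω : ∀ x ∈ U, ∀ u v, omega0 (fderiv ℝ (monoMap A B b ∘ ψ) x u)
      (fderiv ℝ (monoMap A B b ∘ ψ) x v) = omega0 u v := by
    intro x hx u v
    rw [fderiv_comp x ((contDiffAt_monoMap (key x hx).1).differentiableAt (by simp))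
      (hψs.differentiable (by simp) x)]
    simp only [ContinuousLinearMap.coe_comp', Function.comp_apply]
    rw [monoMap_omega (pieceB_mul σ) (key x hx).1, hψω]
  have hφi : Set.InjOn (monoMap A B b ∘ ψ) U := fun x hx y hy h =>
    hψi (monoMap_injOn (pieceB_mul σ) b (key x hx).1 (key y hy).1 h)
  have hact : ∀ x ∈ U, act ((monoMap A B b ∘ ψ) x) = act' A b (ψ x) := fun x hx =>
    funext fun j => act_monoMap (key x hx).1 j
  refine ⟨U, monoMap A B b ∘ ψ, hsub, ⟨hU, hφs, hφω, isOpenEmbedding_of_symp hU hφs hφω hφi⟩, ?_, ?_⟩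
  · intro x hx
    obtain ⟨f, hf, hlt, hcum⟩ := (key x (hsub hx)).2
    show capacity ((monoMap A B b ∘ ψ) x) < R
    rw [capacity_eq, hact x (hsub hx), sum_eq_cum hn, hcum]
    exact hR f hf hlt ⟨n - 1, by lia⟩
  · intro x hx
    rw [hact x hx]
    exact (key x hx).2

end Vale.Agent.P209
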