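import Vale.Agent.P209.Recursion

/-!
Small balls: volume is the only obstruction, up to any factor above one.
-/

namespace Vale.Agent.P209

open scoped Topology
open Filter Finset

variable {n : ℕ}

/-- The whole grid of `m ^ n` pieces. -/
lemma packs_full_grid {ι : Type*} [Fintype ι] {m : ℕ} (hn : 1 ≤ n) (hm : 1 ≤ m)
    (hcard : Fintype.card ι ≤ m ^ n) {R : ℝ} (hR : 0 < R) {r : ι → ℝ} (hr : ∀ i, 0 ≤ r i)
    (hlt : ∀ i, (m : ℝ) * r i < R) : Packs n R r := by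
  classical
  have hm' : (0 : ℝ) < m := Nat.cast_pos.2 hm
  obtain ⟨t, -, hts, ht⟩ := exists_between' hR hlt
  obtain ⟨e⟩ : Nonempty (ι ↪ (Fin n → Fin m)) :=
    Function.Embedding.nonempty_of_card_le (by simpa using hcard)
  have hδ : 0 < (R - t) / m := div_pos (by linarith) hm'
  have hw : ∀ i, r i + (R - t) / m ≤ R / m := fun i => by
    rw [sub_div]
    have h : r i ≤ t / m := by rw [le_div_iff₀' hm']; exact (ht i).le
    linarith
  have hP : ∀ i, _ := fun i =>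
    exists_piece (R := R) (r := r i) (δ := (R - t) / m) (D := 0) (w := R / m) (m := m) hn (hr i)
      hδ (hw i) le_rfl (e i) (fun f hf _ j =>
        (piecePt_lt hf j).trans_le (le_of_eq (by field_simp; ring)))
  choose U φ hU hφ hmaps hc using hP
  refine ⟨φ, fun i => ⟨U i, hU i, hφ i⟩, hmaps, fun i j hij => ?_⟩
  dsimp only
  rw [Set.disjoint_left]
  rintro p ⟨x, hx, rfl⟩ ⟨y, hy, he⟩
  obtain ⟨f, hf, -, hfx⟩ := hc i x (hU i hx)
  obtain ⟨g, hg, -, hgy⟩ := hc j y (hU j hy)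
  rw [he, hfx] at hgy
  exact hij (e.injective (piecePt_disjoint hf hg hgy))

/-- A scale `j * 2 ^ l` just below `x`, with `j` in `[M, 2M)`. -/
lemma exists_scale {M : ℕ} (hM : 0 < M) {x : ℝ} (hx : 2 * (M : ℝ) < x) :
    ∃ (p : Fin M) (l : ℕ), ((M + p : ℕ) : ℝ) * 2 ^ l < x ∧
      x ≤ (((M + p : ℕ) : ℝ) + 1) * 2 ^ l := by
  have hM' : (0 : ℝ) < M := Nat.cast_pos.2 hM
  have h1 : 1 ≤ x / (2 * M) := (one_le_div (by positivity)).2 hx.le
  obtain ⟨l, hl1, hl2⟩ : ∃ l : ℕ, (M : ℝ) * 2 ^ l < x ∧ x ≤ 2 * M * 2 ^ l := by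
    obtain ⟨l, hl⟩ := exists_nat_pow_near (x := x / (2 * M)) h1 (one_lt_two (α := ℝ))
    rw [le_div_iff₀' (by positivity), div_lt_iff₀' (by positivity), pow_succ] at hl
    rcases hl.1.lt_or_eq with h | h
    · exact ⟨l + 1, by rw [pow_succ]; linarith, by rw [pow_succ]; linarith⟩
    · exact ⟨l, by nlinarith [mul_pos hM' (pow_pos (two_pos : (0 : ℝ) < 2) l)], h.ge⟩
  have hp : (0 : ℝ) < 2 ^ l := by positivity
  have a : (M : ℝ) < x / 2 ^ l := (lt_div_iff₀ hp).2 hl1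
  have b : x / 2 ^ l ≤ (2 * M : ℕ) := by push_cast; rw [div_le_iff₀ hp]; exact hl2
  have c1 : M < ⌈x / 2 ^ l⌉₊ := Nat.lt_ceil.2 a
  have c2 : ⌈x / 2 ^ l⌉₊ ≤ 2 * M := Nat.ceil_le.2 b
  refine ⟨⟨⌈x / 2 ^ l⌉₊ - 1 - M, by omega⟩, l, ?_, ?_⟩
  · rw [← lt_div_iff₀ hp, ← Nat.lt_ceil]
    show M + (⌈x / 2 ^ l⌉₊ - 1 - M) < _
    omega
  · rw [← div_le_iff₀ hp]
    have e : M + (⌈x / 2 ^ l⌉₊ - 1 - M) + 1 = ⌈x / 2 ^ l⌉₊ := by omega
    have := Nat.le_ceil (x / 2 ^ l)
    rw [← e] at this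
    simpa using this

/-- The mesh and the number of phases for a given accuracy. -/
lemma exists_mesh (hn : 1 ≤ n) {ε : ℝ} (hε : 0 < ε) :
    ∃ M m : ℕ, 0 < M ∧ 0 < m ∧
      (1 + (M : ℝ)⁻¹) ^ n / (1 + ε) * (m : ℝ) ^ n + M ≤ (m : ℝ) ^ n := by
  have h : Tendsto (fun M : ℕ => (1 + (M : ℝ)⁻¹) ^ n) atTop (𝓝 1) := by
    simpa using ((tendsto_inv_atTop_zero.comp tendsto_natCast_atTop_atTop).const_add (1 : ℝ)).pow n
  obtain ⟨M, hM1, hM2⟩ := ((h.eventually_lt_const (show (1 : ℝ) < 1 + ε by linarith)).and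
    (eventually_gt_atTop 0)).exists
  set q := (1 + (M : ℝ)⁻¹) ^ n / (1 + ε) with hq
  have hq1 : q < 1 := by rw [hq, div_lt_one (by linarith)]; exact hM1
  obtain ⟨m, hm⟩ := exists_nat_gt ((M : ℝ) / (1 - q))
  have hm0 : 0 < m := by
    have : (0 : ℝ) ≤ M / (1 - q) := div_nonneg (Nat.cast_nonneg _) (by linarith)
    exact_mod_cast this.trans_lt hm
  refine ⟨M, m, hM2, hm0, ?_⟩
  rw [div_lt_iff₀ (by linarith)] at hm
  have : (m : ℝ) ≤ (m : ℝ) ^ n := le_self_pow₀ (Nat.one_le_cast.2 hm0) (by omega)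
  nlinarith

/-- Small balls pack as soon as their volume is a little below that of the ball. -/
theorem hasPacking_small (hn : 1 ≤ n) {ε : ℝ} (hε : 0 < ε) :
    ∃ δ : ℝ, 0 < δ ∧ ∀ (k : ℕ) (R : ℝ) (r : Fin k → ℝ), 0 < R → (∀ i, 0 < r i ∧ r i < δ * R) →
      (1 + ε) * ∑ i, r i ^ n ≤ R ^ n → HasPacking n R r := by
  classical
  obtain ⟨M, m, hM, hm, hMm⟩ := exists_mesh hn hε
  refine ⟨1 / (2 * M * m), by positivity, fun k R r hR hr hv => ?_⟩
  set W := R / (m : ℝ) with hW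
  have hm' : (0 : ℝ) < m := Nat.cast_pos.2 hm
  have hM' : (0 : ℝ) < M := Nat.cast_pos.2 hM
  have hW0 : 0 < W := div_pos hR hm'
  have hbig : ∀ i, 2 * (M : ℝ) < W / r i := fun i => by
    rw [lt_div_iff₀ (hr i).1, hW, lt_div_iff₀ hm']
    have := (hr i).2
    rw [div_mul_eq_mul_div, one_mul, lt_div_iff₀ (by positivity)] at this
    linarith
  choose p l hl1 hl2 using fun i => exists_scale hM (hbig i)
  let q : Fin M → ℕ := fun a => (M + a) ^ n
  let J : Fin k → ℝ := fun i => ((M + p i : ℕ) : ℝ)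
  have hJ : ∀ i, J i * 2 ^ l i * r i < W := fun i => (lt_div_iff₀ (hr i).1).1 (hl1 i)
  obtain ⟨t, ht0, htW, ht⟩ := exists_between' hW0 hJ
  obtain ⟨L, hL⟩ : ∃ L, ∀ i, l i ≤ L := ⟨Finset.univ.sup l, fun i => Finset.le_sup (Finset.mem_univ i)⟩
  let B : Fin M → ℕ := fun a => ∑ i ∈ Finset.univ with p i = a, (2 ^ n) ^ (L - l i)
  have hq : ∀ a, 0 < q a := fun a => pow_pos (by omega) n
  let c : Fin M → ℕ := fun a => B a / (q a * (2 ^ n) ^ L) + 1
  have hg : ∀ a, ∃ g : Fin k → Fin (c a * q a), ∀ b,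
      ∑ i ∈ (Finset.univ.filter fun i => p i = a) with g i = b, (2 ^ n) ^ (L - l i) ≤ (2 ^ n) ^ L := by
    intro a
    refine exists_bins (M := 2 ^ n) (L := L) (N := c a * q a) (by positivity)
      (Nat.mul_pos (Nat.succ_pos _) (hq a)) (fun i => L - l i) _ (fun i _ => Nat.sub_le _ _) ?_
    have h1 := Nat.lt_mul_div_succ (B a) (Nat.mul_pos (hq a) (pow_pos (pow_pos (by norm_num : 0 < 2) n) L))
    refine h1.le.trans (le_of_eq ?_)
    simp only [c]; ring
  choose g hg using hg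
  -- the cells fit in the grid
  have hcount : ∑ a, c a ≤ m ^ n := by
    have h1 : ∀ i, (((2 ^ n) ^ (L - l i) : ℕ) : ℝ) / (((q (p i) * (2 ^ n) ^ L : ℕ)) : ℝ)
        ≤ ((1 + (M : ℝ)⁻¹) * r i / W) ^ n := by
      intro i
      have hJM : (M : ℝ) ≤ J i := by simp only [J]; push_cast; linarith [(Nat.cast_nonneg (p i : ℕ) : (0 : ℝ) ≤ _)]
      have hJ0 : 0 < J i := hM'.trans_le hJM
      have e1 : W ≤ (1 + (M : ℝ)⁻¹) * r i * (J i * 2 ^ l i) := by
        have h := (div_le_iff₀ (hr i).1).1 (hl2 i)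
        refine h.trans ?_
        have h3 : J i + 1 ≤ (1 + (M : ℝ)⁻¹) * J i := by
          have : 1 ≤ (M : ℝ)⁻¹ * J i := by rw [inv_mul_eq_div, one_le_div hM']; exact hJM
          linarith
        calc (J i + 1) * 2 ^ l i * r i ≤ (1 + (M : ℝ)⁻¹) * J i * 2 ^ l i * r i := by
              gcongr
              exact (hr i).1.le
          _ = _ := by ring
      have e2 : (((2 ^ n) ^ (L - l i) : ℕ) : ℝ) / (((q (p i) * (2 ^ n) ^ L : ℕ)) : ℝ)
          = 1 / (J i * 2 ^ l i) ^ n := by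
        obtain ⟨s, hs⟩ : ∃ s, L = l i + s := ⟨L - l i, by have := hL i; omega⟩
        rw [hs, Nat.add_sub_cancel_left]
        simp only [q, J]
        push_cast
        rw [pow_add, mul_pow, ← pow_mul (2 : ℝ) (l i) n, ← pow_mul, ← pow_mul, mul_comm (l i) n]
        field_simp
      rw [e2, one_div, ← inv_pow]
      refine pow_le_pow_left₀ (by positivity) ?_ n
      rw [inv_le_iff_one_le_mul₀' (by positivity), ← mul_div_assoc, le_div_iff₀ hW0, one_mul]
      linarith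
    have h2 : ((∑ a, c a : ℕ) : ℝ) ≤ (∑ i, ((1 + (M : ℝ)⁻¹) * r i / W) ^ n) + M := by
      rw [← Finset.sum_fiberwise Finset.univ p, Nat.cast_sum]
      calc ∑ a, (c a : ℝ)
          ≤ ∑ a : Fin M, ((∑ i ∈ Finset.univ with p i = a, ((1 + (M : ℝ)⁻¹) * r i / W) ^ n) + 1) := by
            refine Finset.sum_le_sum fun a _ => ?_
            simp only [c, Nat.cast_add, Nat.cast_one]
            refine add_le_add (Nat.cast_div_le.trans ?_) le_rfl
            simp only [B, Nat.cast_sum, Finset.sum_div]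
            refine Finset.sum_le_sum fun i hi => ?_
            rw [← (Finset.mem_filter.1 hi).2]
            exact h1 i
        _ = _ := by rw [Finset.sum_add_distrib]; simp
    have h3 : ∑ i, ((1 + (M : ℝ)⁻¹) * r i / W) ^ n ≤ (1 + (M : ℝ)⁻¹) ^ n / (1 + ε) * (m : ℝ) ^ n := by
      simp_rw [mul_div_assoc, mul_pow, ← Finset.mul_sum, div_pow, ← Finset.sum_div]
      rw [hW, div_pow, div_mul_eq_mul_div, mul_div_assoc]
      refine mul_le_mul_of_nonneg_left ?_ (by positivity)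
      rw [div_div_eq_mul_div, div_le_div_iff₀ (by positivity) (by linarith)]
      nlinarith [pow_pos hm' n]
    have h4 : ((∑ a, c a : ℕ) : ℝ) ≤ ((m ^ n : ℕ) : ℝ) := by push_cast at h2 ⊢; linarith
    exact_mod_cast h4
  -- the three levels
  let t' := (t + W) / 2
  have htop : Packs n R (fun _ : (a : Fin M) × Fin (c a) => t') := by
    refine packs_full_grid hn hm (by simpa using hcount) hR (fun _ => by positivity) fun _ => ?_
    have e : (m : ℝ) * W = R := by rw [hW]; field_simp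
    show (m : ℝ) * ((t + W) / 2) < R
    nlinarith
  let u : (a : Fin M) × Fin (c a * q a) → ℝ := fun z => t / ((M + z.1 : ℕ) : ℝ)
  have hmid : Packs n R u := by
    refine Packs.comp (fun z => ⟨z.1, (finProdFinEquiv.symm z.2).1⟩) htop ?_
    rintro ⟨a, b⟩
    refine packs_full_grid (m := M + a) hn (by omega) ?_ (by positivity) (fun _ => by positivity) ?_
    · refine le_of_le_of_eq (Fintype.card_le_of_surjective
        (fun e : Fin (q a) => (⟨⟨a, finProdFinEquiv (b, e)⟩, by simp⟩ :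
          {z : (a : Fin M) × Fin (c a * q a) //
            (⟨z.1, (finProdFinEquiv.symm z.2).1⟩ : (a : Fin M) × Fin (c a)) = ⟨a, b⟩})) ?_)
        (Fintype.card_fin _)
      rintro ⟨⟨a', z⟩, h⟩
      obtain ⟨rfl, h⟩ := Sigma.mk.inj h
      refine ⟨(finProdFinEquiv.symm z).2, Subtype.ext ?_⟩
      simp only [Sigma.mk.injEq, heq_eq_eq, true_and]
      rw [← eq_of_heq h, Prod.mk.eta, Equiv.apply_symm_apply]
    · rintro ⟨⟨a', z⟩, h⟩
      obtain ⟨rfl, -⟩ := Sigma.mk.inj h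
      simp only [u]
      rw [mul_div_cancel₀ _ (Nat.cast_ne_zero.2 (by omega))]
      show t < (t + W) / 2
      linarith
  refine hasPacking_iff.2 (Packs.comp (fun i => ⟨p i, g (p i) i⟩) hmid ?_)
  rintro ⟨a, b⟩
  have hpa : ∀ i, (⟨p i, g (p i) i⟩ : (a : Fin M) × Fin (c a * q a)) = ⟨a, b⟩ ↔ p i = a ∧ g a i = b := by
    intro i
    constructor
    · intro h
      obtain ⟨rfl, h⟩ := Sigma.mk.inj h
      exact ⟨rfl, eq_of_heq h⟩
    · rintro ⟨rfl, rfl⟩; rfl
  refine packs_dyadic hn L _ _ (fun i => l i.1) (u ⟨a, b⟩) (div_pos ht0 (Nat.cast_pos.2 (by omega)))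
    (fun i => (hr i.1).1) (fun i => hL i.1) (fun i => ?_) ?_
  · have hp := ((hpa i).1 i.2).1
    simp only [u]
    rw [lt_div_iff₀ (by positivity)]
    have := ht i
    simp only [J, hp] at this
    linarith
  · refine le_trans (le_of_eq ?_) (hg a b)
    rw [Finset.sum_subtype (p := fun i => (⟨p i, g (p i) i⟩ : (a : Fin M) × Fin (c a * q a)) = ⟨a, b⟩)
      ((Finset.univ.filter fun i => p i = a).filter fun i => g a i = b)
      (fun i => by simp [hpa]) (fun i => (2 ^ n) ^ (L - l i))]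

end Vale.Agent.P209
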