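import Vale.Agent.P209.Cells
import Vale.Agent.P209.Small

/-!
Balls of mixed size: a few large balls in pieces of a grid, and the small balls in the free cells of
a much finer grid.
-/

namespace Vale.Agent.P209

open scoped Topology
open Filter

variable {n : ℕ}

/-- Loads that differ by at most the largest item. -/
lemma exists_balanced {ι κ : Type*} [Fintype κ] [DecidableEq ι] [DecidableEq κ] [Nonempty κ]
    (a : ι → ℝ) (s : Finset ι) {b : ℝ} (ha : ∀ i ∈ s, 0 ≤ a i ∧ a i ≤ b) (hb : 0 ≤ b) :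
    ∃ g : ι → κ, ∀ j, (Fintype.card κ : ℝ) * ∑ i ∈ s with g i = j, a i
      ≤ ∑ i ∈ s, a i + Fintype.card κ * b := by
  induction s using Finset.induction_on with
  | empty => exact ⟨fun _ => Classical.arbitrary κ, fun j => by simp; positivity⟩
  | insert x s hx ih =>
    obtain ⟨g, hg⟩ := ih fun i hi => ha i (Finset.mem_insert_of_mem hi)
    obtain ⟨j0, hj0⟩ := Finite.exists_min fun j => ∑ i ∈ s with g i = j, a i
    obtain ⟨hx0, hxb⟩ := ha x (Finset.mem_insert_self x s)
    refine ⟨Function.update g x j0, fun j => ?_⟩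
    have hsame : ∀ i ∈ s, Function.update g x j0 i = g i := fun i hi =>
      Function.update_of_ne (fun h : i = x => hx (h ▸ hi)) j0 g
    rw [Finset.sum_insert hx, Finset.filter_insert, Function.update_self]
    rw [Finset.filter_congr (q := fun i => g i = j) fun i hi => by rw [hsame i hi]]
    by_cases hj : j0 = j
    · subst hj
      rw [if_pos rfl, Finset.sum_insert (fun h => hx (Finset.mem_filter.1 h).1), mul_add]
      have h1 : (Fintype.card κ : ℝ) * ∑ i ∈ s with g i = j0, a i ≤ ∑ i ∈ s, a i := by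
        calc (Fintype.card κ : ℝ) * ∑ i ∈ s with g i = j0, a i
            = ∑ _j : κ, ∑ i ∈ s with g i = j0, a i := by simp
          _ ≤ ∑ j : κ, ∑ i ∈ s with g i = j, a i := Finset.sum_le_sum fun j _ => hj0 j
          _ = _ := Finset.sum_fiberwise s g a
      have h2 := mul_le_mul_of_nonneg_left hxb (Nat.cast_nonneg (α := ℝ) (Fintype.card κ))
      linarith
    · rw [if_neg hj]
      linarith [hg j]

/-- The fine grid. -/
lemma exists_fine (n : ℕ) (P : ℝ) {θ : ℝ} (hθ : 0 < θ) :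
    ∃ m : ℕ, 1 ≤ m ∧ P * ((1 + (2 * n + 3 : ℝ) / m) ^ n - 1) ≤ θ := by
  have h : Tendsto (fun m : ℕ => P * ((1 + (2 * n + 3 : ℝ) / m) ^ n - 1)) atTop (𝓝 0) := by
    simpa using (((tendsto_const_div_atTop_nhds_zero_nat (2 * n + 3 : ℝ)).const_add 1).pow n
      |>.sub_const 1).const_mul P
  obtain ⟨m, h1, h2⟩ := ((h.eventually_le_const hθ).and (eventually_ge_atTop 1)).exists
  exact ⟨m, h2, h1⟩

/-- Large balls in given pieces, arbitrarily many small balls in the rest. -/
theorem hasPacking_pieces_small (hn : 1 ≤ n) (M P : ℕ) {ε : ℝ} (hε : 0 < ε) :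
    ∃ δ : ℝ, 0 < δ ∧ ∀ (k : ℕ) (R : ℝ) (r : Fin k → ℝ) (K : Finset (Fin k)) (D w : Fin k → ℝ)
      (c : Fin k → Fin n → Fin M) (η : ℝ), 0 < R → 0 < η → (∀ i, 0 < r i) → K.card ≤ P →
      (∀ i ∈ K, 0 ≤ D i ∧ r i + η ≤ w i ∧ ∀ f, IsChain (w i) f → (∀ a, f a < r i + η) →
        ∀ a, piecePt (D i) (w i) (c i) f a < R) →
      (∀ i ∈ K, ∀ j ∈ K, i ≠ j → ∀ f g, IsChain (w i) f → (∀ a, f a < r i + η) →
        IsChain (w j) g → (∀ a, g a < r j + η) →
        piecePt (D i) (w i) (c i) f ≠ piecePt (D j) (w j) (c j) g) →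
      (∀ i ∉ K, r i < δ * R) → (1 + ε) * ∑ i, r i ^ n ≤ R ^ n → HasPacking n R r := by
  classical
  obtain ⟨ε₁, hε₁0, hε₁1, hε₁⟩ : ∃ e, 0 < e ∧ e ≤ 1 ∧ e ≤ ε :=
    ⟨min ε 1, lt_min hε one_pos, min_le_right _ _, min_le_left _ _⟩
  set ε₀ := ε₁ / 16 with hε₀
  obtain ⟨δ', hδ', hsmall⟩ := hasPacking_small hn (show 0 < ε₀ by positivity)
  obtain ⟨q, hq0, hq1, hq⟩ : ∃ q : ℝ, 0 < q ∧ q < 1 ∧ 1 + ε₀ ≤ q ^ n * (1 + 2 * ε₀) := by
    have h : ∀ᶠ q in 𝓝[<] (1 : ℝ), 0 < q ∧ 1 + ε₀ < q ^ n * (1 + 2 * ε₀) := by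
      refine Filter.Eventually.filter_mono nhdsWithin_le_nhds ((eventually_gt_nhds one_pos).and ?_)
      have hc : Continuous fun q : ℝ => q ^ n * (1 + 2 * ε₀) := by fun_prop
      exact (hc.tendsto' 1 (1 + 2 * ε₀) (by simp)).eventually_const_lt (by linarith)
    have e0 : ∀ᶠ q in 𝓝[<] (1 : ℝ), q ∈ Set.Iio 1 := self_mem_nhdsWithin
    obtain ⟨q, hq1, hq0, hq⟩ := (e0.and h).exists
    exact ⟨q, hq0, hq1, hq.le⟩
  obtain ⟨m, hm, hmP⟩ := exists_fine n (P : ℝ) (show 0 < ε₁ / 8 by positivity)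
  have hm' : (0 : ℝ) < m := Nat.cast_pos.2 hm
  obtain ⟨δ₂, hδ₂0, hδ₂⟩ : ∃ d : ℝ, 0 < d ∧ ((m : ℝ) * d) ^ n ≤ ε₁ / 8 ∧ d ≤ δ' * q / m := by
    refine ⟨min (min 1 (ε₁ / 8) / m) (δ' * q / m), lt_min (by positivity) (by positivity), ?_,
      min_le_right _ _⟩
    have h1 : (m : ℝ) * min (min 1 (ε₁ / 8) / m) (δ' * q / m) ≤ min 1 (ε₁ / 8) := by
      have := mul_le_mul_of_nonneg_left (min_le_left (min 1 (ε₁ / 8) / m) (δ' * q / m)) hm'.le
      rwa [mul_div_cancel₀ _ hm'.ne'] at this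
    exact (pow_le_pow_left₀ (by positivity) h1 n).trans
      ((pow_le_of_le_one (by positivity) (min_le_left _ _) (by omega)).trans (min_le_right _ _))
  refine ⟨δ₂, hδ₂0, fun k R r K D w c η hR hη hr hKP hpc hsep hsm hv => ?_⟩
  set h := R / m with hh
  have hh0 : 0 < h := div_pos hR hm'
  obtain ⟨η', hη'0, hη'h, hη'⟩ : ∃ e, 0 < e ∧ e ≤ h ∧ e ≤ η :=
    ⟨min h η, lt_min hh0 hη, min_le_left _ _, min_le_right _ _⟩
  -- normalised volumes
  set B := ∑ i ∈ K, (r i / R) ^ n with hB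
  set T := ∑ i ∈ Kᶜ, (r i / R) ^ n with hT
  have hBT : (1 + ε₁) * (B + T) ≤ 1 := by
    rw [hB, hT, Finset.sum_add_sum_compl]
    simp_rw [div_pow, ← Finset.sum_div]
    rw [← mul_div_assoc, div_le_one (by positivity)]
    refine le_trans (mul_le_mul_of_nonneg_right (by linarith) ?_) hv
    exact Finset.sum_nonneg fun i _ => pow_nonneg (hr i).le n
  have hB0 : 0 ≤ B := Finset.sum_nonneg fun i _ => by have := hr i; positivity
  have hT0 : 0 ≤ T := Finset.sum_nonneg fun i _ => by have := hr i; positivity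
  have hT1 : T ≤ 1 := by nlinarith
  have hlt : ∀ i ∈ K, r i / R ≤ 1 := fun i hi => by
    have h1 : (r i / R) ^ n ≤ B :=
      Finset.single_le_sum (f := fun i => (r i / R) ^ n) (fun j _ => by have := hr j; positivity) hi
    exact le_of_pow_le_pow_left₀ (n := n) (by omega) zero_le_one (by rw [one_pow]; nlinarith [h1])
  -- the cells met by the pieces
  set S := K.biUnion fun i => hit m h (D i) (w i) (r i + η') (c i) with hS
  have hSc : (S.card : ℝ) ≤ (m : ℝ) ^ n * (B + ε₁ / 8) := by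
    have h1 : ∀ i ∈ K, ((hit m h (D i) (w i) (r i + η') (c i)).card : ℝ)
        ≤ (m : ℝ) ^ n * ((r i / R) ^ n + ((1 + (2 * n + 3 : ℝ) / m) ^ n - 1)) := by
      intro i hi
      have hJ := card_hit_le hh0 (c i) (D := D i) (w := w i) (m := m) (t := r i + η')
        (J := ⌈(r i + η') / h⌉₊ + (2 * n + 1))
        (by push_cast; linarith [Nat.le_ceil ((r i + η') / h)])
      refine (Nat.cast_le.2 hJ).trans ?_
      have hJ' : ((⌈(r i + η') / h⌉₊ + (2 * n + 1) : ℕ) : ℝ)
          ≤ (m : ℝ) * (r i / R + (2 * n + 3 : ℝ) / m) := by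
        have := (Nat.ceil_lt_add_one (show 0 ≤ (r i + η') / h by have := hr i; positivity)).le
        have e : (m : ℝ) * (r i / R + (2 * n + 3 : ℝ) / m) = r i / h + (2 * n + 3) := by
          rw [hh]; field_simp
        have : η' / h ≤ 1 := (div_le_one hh0).2 hη'h
        have := add_div (r i) η' h
        push_cast
        linarith
      push_cast at hJ' ⊢
      refine (pow_le_pow_left₀ (by positivity) hJ' n).trans ?_
      rw [mul_pow]
      refine mul_le_mul_of_nonneg_left ?_ (by positivity)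
      set x := r i / R
      set C := (2 * n + 3 : ℝ) / m
      have hx : 0 ≤ x := by have := hr i; positivity
      have hC : 0 ≤ C := by positivity
      have g1 := geom_sum₂_mul (x + C) x n
      have g2 := geom_sum₂_mul (1 + C) 1 n
      simp only [add_sub_cancel_left] at g1 g2
      have g3 : ∑ a ∈ Finset.range n, (x + C) ^ a * x ^ (n - 1 - a)
          ≤ ∑ a ∈ Finset.range n, (1 + C) ^ a * 1 ^ (n - 1 - a) :=
        Finset.sum_le_sum fun a _ => by
          gcongr
          · exact hlt i hi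
          · exact hlt i hi
      have := mul_le_mul_of_nonneg_right g3 hC
      rw [one_pow] at g2
      linarith
    have h2 := (Nat.cast_le (α := ℝ)).2 (Finset.card_biUnion_le (s := K)
      (t := fun i => hit m h (D i) (w i) (r i + η') (c i)))
    rw [Nat.cast_sum] at h2
    refine h2.trans ((Finset.sum_le_sum h1).trans ?_)
    rw [← Finset.mul_sum, Finset.sum_add_distrib, Finset.sum_const, nsmul_eq_mul]
    refine mul_le_mul_of_nonneg_left ?_ (by positivity)
    have h0 : 0 ≤ (1 + (2 * n + 3 : ℝ) / m) ^ n - 1 :=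
      sub_nonneg.2 (one_le_pow₀ (le_add_of_nonneg_right (by positivity)))
    have := mul_le_mul_of_nonneg_right (Nat.cast_le (α := ℝ).2 hKP) h0
    linarith
  -- enough free cells
  set F := (Finset.univ \ S : Finset (Fin n → Fin m)) with hF
  have hFc : (m : ℝ) ^ n * (T + 3 * ε₁ / 8) ≤ F.card := by
    have : (F.card : ℝ) = (m : ℝ) ^ n - S.card := by
      rw [hF, Finset.card_sdiff_of_subset (Finset.subset_univ _),
        Nat.cast_sub (Finset.card_le_card (Finset.subset_univ S))]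
      simp
    rw [this]
    have hBT' : B + T ≤ 1 - ε₁ / 2 := by nlinarith
    linarith [mul_le_mul_of_nonneg_left hBT' (pow_nonneg hm'.le n)]
  have hFpos : 0 < F.card := by
    have : (0 : ℝ) < (m : ℝ) ^ n * (T + 3 * ε₁ / 8) := by positivity
    exact_mod_cast this.trans_le hFc
  have : Nonempty {x // x ∈ F} := ⟨⟨_, (Finset.card_pos.1 hFpos).choose_spec⟩⟩
  obtain ⟨g, hg⟩ := exists_balanced (κ := {x // x ∈ F}) (fun i => r i ^ n) Kᶜ (b := (δ₂ * R) ^ n)
    (fun i hi => ⟨pow_nonneg (hr i).le n,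
      pow_le_pow_left₀ (hr i).le (hsm i (Finset.mem_compl.1 hi)).le n⟩) (by positivity)
  rw [Fintype.card_coe] at hg
  have hload : ∀ j, (1 + ε₀) * ∑ i ∈ Kᶜ with g i = j, r i ^ n ≤ (q * h) ^ n := by
    intro j
    set L := ∑ i ∈ Kᶜ with g i = j, r i ^ n
    have hTsum : ∑ i ∈ Kᶜ, r i ^ n = T * R ^ n := by
      rw [hT, Finset.sum_mul]
      exact Finset.sum_congr rfl fun i _ => by rw [div_pow, div_mul_cancel₀]; positivity
    have h1 := hg j
    rw [hTsum] at h1
    have hF0 : (0 : ℝ) < F.card := Nat.cast_pos.2 hFpos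
    have e1 : R ^ n = (m : ℝ) ^ n * h ^ n := by rw [← mul_pow, hh, mul_div_cancel₀ _ hm'.ne']
    have e2 : (δ₂ * R) ^ n = ((m : ℝ) * δ₂) ^ n * h ^ n := by
      rw [← mul_pow, hh]; congr 1; field_simp
    -- `L ≤ (T m^n / F + ε₁/8) h^n`
    have h2 : (F.card : ℝ) * L ≤ F.card * ((1 - ε₁ / 4) * h ^ n) := by
      refine h1.trans ?_
      rw [e1, e2]
      have h3 : T * (m : ℝ) ^ n + F.card * (((m : ℝ) * δ₂) ^ n) ≤ F.card * (1 - ε₁ / 4) := by
        have := mul_le_mul_of_nonneg_left hδ₂.1 hF0.le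
        have hcard : (F.card : ℝ) ≤ (m : ℝ) ^ n := by
          have := Finset.card_le_univ F
          simp at this
          exact_mod_cast this
        linarith [mul_le_mul_of_nonneg_left hcard hε₁0.le]
      linarith [mul_le_mul_of_nonneg_right h3 (pow_nonneg hh0.le n)]
    have h4 := le_of_mul_le_mul_left h2 hF0
    have h5 : (1 + ε₀) * L ≤ q ^ n * (1 + 2 * ε₀) * L :=
      mul_le_mul_of_nonneg_right hq (Finset.sum_nonneg fun i _ => pow_nonneg (hr i).le n)
    refine h5.trans ?_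
    rw [mul_pow, mul_assoc]
    refine mul_le_mul_of_nonneg_left ?_ (by positivity)
    have : (1 + 2 * ε₀) * ((1 - ε₁ / 4) * h ^ n) ≤ h ^ n := by
      rw [← mul_assoc]
      refine mul_le_of_le_one_left (by positivity) ?_
      nlinarith
    exact (mul_le_mul_of_nonneg_left h4 (by positivity)).trans this
  -- the outer packing: the pieces and the free cells
  set t : {i // i ∈ K} ⊕ {x // x ∈ F} → ℝ := Sum.elim (fun i => r i.1 + η' / 2) (fun _ => q * h)
  have hqh : q * h < h := mul_lt_of_lt_one_left hh0 hq1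
  have hR' : (m : ℝ) * h = R := by rw [hh, mul_div_cancel₀ _ hm'.ne']
  have hbig : ∀ i : {i // i ∈ K}, _ := fun i =>
    exists_piece (R := R) (r := r i.1 + η' / 2) (δ := η' / 2) (D := D i.1) (w := w i.1) hn
      (add_nonneg (hr i.1).le (by positivity)) (by positivity)
      (by linarith [(hpc i.1 i.2).2.1]) (hpc i.1 i.2).1 (c i.1) (fun f hf hlt => (hpc i.1 i.2).2.2 f hf
        fun a => by linarith [hlt a])
  have hcell : ∀ x : {x // x ∈ F}, _ := fun x =>
    exists_piece (R := R) (r := q * h) (δ := h - q * h) (D := 0) (w := h) (m := m) hn (by positivity)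
      (by linarith) (by linarith) le_rfl x.1 (fun f hf _ a => by
        refine (piecePt_lt hf a).trans_le ?_
        linarith)
  choose U φ hU hφ hmaps hc using hbig
  choose U' φ' hU' hφ' hmaps' hc' using hcell
  have hcross : ∀ i x, ∀ p ∈ U i, ∀ p' ∈ U' x, φ i p ≠ φ' x p' := by
    intro i x p hp p' hp' he
    obtain ⟨f, hf, hft, hfe⟩ := hc i p hp
    obtain ⟨f', hf', -, hfe'⟩ := hc' x p' hp'
    rw [he, hfe'] at hfe
    refine (Finset.mem_sdiff.1 x.2).2 (Finset.mem_biUnion.2 ⟨i.1, i.2, ?_⟩)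
    simp only [hit, Finset.mem_filter, Finset.mem_univ, true_and]
    exact ⟨f, f', hf, fun a => by linarith [hft a], hf', hfe.symm⟩
  have houter : Packs n R t := by
    refine ⟨Sum.elim φ φ', ?_, ?_, ?_⟩
    · rintro (i | x)
      exacts [⟨U i, hU i, hφ i⟩, ⟨U' x, hU' x, hφ' x⟩]
    · rintro (i | x)
      exacts [hmaps i, hmaps' x]
    · rintro (i | x) (j | y) hne <;> dsimp only [Sum.elim_inl, Sum.elim_inr] <;>
        rw [Set.disjoint_left] <;> rintro z ⟨p, hp, rfl⟩ ⟨p', hp', he⟩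
      · obtain ⟨f, hf, hft, hfe⟩ := hc i p (hU i hp)
        obtain ⟨f', hf', hft', hfe'⟩ := hc j p' (hU j hp')
        rw [he, hfe] at hfe'
        exact hsep i.1 i.2 j.1 j.2 (fun e => hne (congr_arg Sum.inl (Subtype.ext e))) f f' hf
          (fun a => by linarith [hft a]) hf' (fun a => by linarith [hft' a]) hfe'
      · exact hcross i y p (hU i hp) p' (hU' y hp') he.symm
      · exact hcross j x p' (hU j hp') p (hU' x hp) he
      · obtain ⟨f, hf, -, hfe⟩ := hc' x p (hU' x hp)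
        obtain ⟨f', hf', -, hfe'⟩ := hc' y p' (hU' y hp')
        rw [he, hfe] at hfe'
        exact hne (congr_arg Sum.inr (Subtype.ext (piecePt_disjoint hf hf' hfe')))
  let G : Fin k → {i // i ∈ K} ⊕ {x // x ∈ F} := fun i =>
    if hi : i ∈ K then Sum.inl ⟨i, hi⟩ else Sum.inr (g i)
  refine hasPacking_iff.2 (Packs.comp G houter ?_)
  rintro (i | x)
  · have key : ∀ a : {a // G a = Sum.inl i}, a.1 = i.1 := by
      rintro ⟨a, ha⟩
      by_cases haK : a ∈ K
      · simp only [G, dif_pos haK] at ha; exact congr_arg Subtype.val (Sum.inl.inj ha)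
      · simp only [G, dif_neg haK] at ha; exact absurd ha Sum.inr_ne_inl
    have : Subsingleton {a // G a = Sum.inl i} :=
      ⟨fun a b => Subtype.ext ((key a).trans (key b).symm)⟩
    exact packs_subsingleton fun a => by rw [key a]; simp only [t, Sum.elim_inl]; linarith
  · let ι := {a // G a = Sum.inr x}
    have hmem : ∀ a, G a = Sum.inr x ↔ a ∈ Kᶜ.filter fun a => g a = x := fun a => by
      by_cases haK : a ∈ K <;> simp [G, haK]
    let e := Fintype.equivFin ι
    have h' := hsmall (Fintype.card ι) (q * h) (fun l => r (e.symm l).1) (by positivity) (fun l => by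
      refine ⟨hr _, ?_⟩
      have hK := (Finset.mem_filter.1 ((hmem _).1 (e.symm l).2)).1
      refine (hsm _ (Finset.mem_compl.1 hK)).trans_le ?_
      rw [hh]
      calc δ₂ * R ≤ δ' * q / m * R := mul_le_mul_of_nonneg_right hδ₂.2 hR.le
        _ = _ := by ring) (by
      rw [e.symm.sum_comp (fun a : ι => r a.1 ^ n),
        ← Finset.sum_subtype (Kᶜ.filter fun a => g a = x) (fun a => (hmem a).symm) fun a => r a ^ n]
      exact hload x)
    simpa [ι, t] using (hasPacking_iff.1 h').reindex e.toEmbedding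

end Vale.Agent.P209
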