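import Vale.Agent.P209.Mixed

/-!
Conjecture A up to any volume factor above one when all but a few balls are small.
-/

namespace Vale.Agent.P209

open scoped Topology
open Filter

variable {n m k : ℕ}

/-- The grid pieces for the large balls. -/
lemma grid_pieces (hn : 1 ≤ n) (hm : 1 ≤ m) {R : ℝ} {r : Fin k → ℝ} (hr : ∀ i, 0 < r i)
    (K : Finset (Fin k)) (hk : K.card + (m - 1) ^ n ≤ m ^ n + 1) (i0 : Fin k) (hi0 : i0 ∈ K)
    (h0 : r i0 < R) (hpair : ∀ i ∈ K, i ≠ i0 → r i + r i0 < R)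
    (hsmall : ∀ i ∈ K, i ≠ i0 → (m : ℝ) * r i < R) :
    ∃ (D w : Fin k → ℝ) (c : Fin k → Fin n → Fin m) (η : ℝ), 0 < η ∧
      (∀ i ∈ K, 0 ≤ D i ∧ r i + η ≤ w i ∧ ∀ f, IsChain (w i) f → (∀ a, f a < r i + η) →
        ∀ a, piecePt (D i) (w i) (c i) f a < R) ∧
      ∀ i ∈ K, ∀ j ∈ K, i ≠ j → ∀ f g, IsChain (w i) f → (∀ a, f a < r i + η) →
        IsChain (w j) g → (∀ a, g a < r j + η) →
        piecePt (D i) (w i) (c i) f ≠ piecePt (D j) (w j) (c j) g := by
  classical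
  have hm' : (0 : ℝ) < m := Nat.cast_pos.2 hm
  obtain ⟨δ, hδ0, hδ, hδs⟩ : ∃ δ, 0 < δ ∧ r i0 + δ < R ∧
      ∀ i ∈ K, i ≠ i0 → r i + r i0 + 2 * δ < R ∧ (m : ℝ) * (r i + δ) < R := by
    have c1 : Continuous fun δ : ℝ => r i0 + δ := by fun_prop
    have e1 : ∀ᶠ δ in 𝓝 (0 : ℝ), r i0 + δ < R :=
      (c1.tendsto' 0 (r i0) (by simp)).eventually_lt_const h0
    have e2 : ∀ᶠ δ in 𝓝 (0 : ℝ), ∀ i, i ∈ K → i ≠ i0 →
        r i + r i0 + 2 * δ < R ∧ (m : ℝ) * (r i + δ) < R := by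
      refine eventually_all.2 fun i => ?_
      by_cases hi : i ∈ K ∧ i ≠ i0
      · have ca : Continuous fun δ : ℝ => r i + r i0 + 2 * δ := by fun_prop
        have cb : Continuous fun δ : ℝ => (m : ℝ) * (r i + δ) := by fun_prop
        filter_upwards [(ca.tendsto' 0 (r i + r i0) (by simp)).eventually_lt_const (hpair i hi.1 hi.2),
          (cb.tendsto' 0 ((m : ℝ) * r i) (by simp)).eventually_lt_const (hsmall i hi.1 hi.2)]
          with δ ha hb _ _ using ⟨ha, hb⟩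
      · exact Eventually.of_forall fun _ h h' => absurd ⟨h, h'⟩ hi
    have e0 : ∀ᶠ δ in 𝓝[>] (0 : ℝ), δ ∈ Set.Ioi (0 : ℝ) := self_mem_nhdsWithin
    exact (e0.and ((e1.and e2).filter_mono nhdsWithin_le_nhds)).exists
  set W := min (R / m) (R - r i0 - δ)
  have hwle : ∀ i ∈ K, i ≠ i0 → r i + δ ≤ W := fun i hi hne => by
    refine le_min ?_ (by linarith [(hδs i hi hne).1])
    rw [le_div_iff₀ hm']; linarith [(hδs i hi hne).2]
  have hmw : (m : ℝ) * W ≤ R := by
    have h : W ≤ R / m := min_le_left _ _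
    rw [le_div_iff₀ hm'] at h
    linarith
  obtain ⟨e⟩ : Nonempty ({i // i ∈ K.erase i0} ↪ {c : Fin n → Fin m // ∃ t, (c t : ℕ) = m - 1}) := by
    refine Function.Embedding.nonempty_of_card_le ?_
    have := card_top_words n m hm
    rw [Fintype.card_coe, Finset.card_erase_of_mem hi0]
    omega
  let c : Fin k → Fin n → Fin m := fun i =>
    if hi : i ∈ K.erase i0 then (e ⟨i, hi⟩).1 else fun _ => ⟨0, hm⟩
  let D : Fin k → ℝ := fun i => if i = i0 then 0 else R - m * W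
  let w : Fin k → ℝ := fun i => if i = i0 then r i0 + δ else W
  let last : Fin n := ⟨n - 1, by lia⟩
  have h00 : ∀ f : Fin n → ℝ, ∀ a, piecePt (D i0) (w i0) (c i0) f a
      = f (Tuple.sort (c i0) a) := fun f a => by
    simp [piecePt, pieceShift, D, c]
  have hlow : ∀ i ∈ K, i ≠ i0 → ∀ f, IsChain (w i) f →
      r i0 + δ ≤ piecePt (D i) (w i) (c i) f last := by
    intro i hi hne f hf
    have hmem : i ∈ K.erase i0 := Finset.mem_erase.2 ⟨hne, hi⟩
    have hci : c i = (e ⟨i, hmem⟩).1 := dif_pos hmem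
    obtain ⟨t, ht⟩ := (e ⟨i, hmem⟩).2
    rw [← hci] at ht
    have hle : c i t ≤ c i (Tuple.sort (c i) last) := by
      have := Tuple.monotone_sort (c i) (show (Tuple.sort (c i)).symm t ≤ last from by
        have := ((Tuple.sort (c i)).symm t).2; simp [last, Fin.le_def]; lia)
      simpa using this
    have hd : ((m - 1 : ℕ) : ℝ) ≤ ((c i (Tuple.sort (c i) last) : ℕ) : ℝ) := by
      rw [← ht]; exact_mod_cast hle
    rw [Nat.cast_sub hm] at hd
    push_cast at hd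
    have hfpos := (hf.2 (Tuple.sort (c i) last)).1
    have hW0 : 0 ≤ W := by have := hwle i hi hne; have := hr i; linarith
    have hw2 : W ≤ R - r i0 - δ := min_le_right _ _
    simp only [piecePt, pieceShift, D, w, if_neg hne]
    nlinarith [mul_le_mul_of_nonneg_right hd hW0]
  refine ⟨D, w, c, δ, hδ0, fun i hi => ?_, fun i hi j hj hij f g hf hft hg hgt h => ?_⟩
  · by_cases hne : i = i0
    · subst hne
      refine ⟨by simp [D], by simp [w], fun f _ hlt a => ?_⟩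
      rw [h00]
      linarith [hlt (Tuple.sort (c i) a)]
    · refine ⟨by simp only [D, if_neg hne]; linarith, by simp only [w, if_neg hne]; exact hwle i hi hne,
        fun f hf _ a => (piecePt_lt hf a).trans_le ?_⟩
      simp [D, w, if_neg hne]
  · by_cases hi' : i = i0
    · subst hi'
      have h1 := hlow j hj (Ne.symm hij) g hg
      rw [← congr_fun h last, h00] at h1
      linarith [hft (Tuple.sort (c i) last)]
    · by_cases hj' : j = i0
      · subst hj'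
        have h1 := hlow i hi hi' f hf
        rw [congr_fun h last, h00] at h1
        linarith [hgt (Tuple.sort (c j) last)]
      · simp only [D, w, if_neg hi', if_neg hj'] at h hf hg
        have hmi : i ∈ K.erase i0 := Finset.mem_erase.2 ⟨hi', hi⟩
        have hmj : j ∈ K.erase i0 := Finset.mem_erase.2 ⟨hj', hj⟩
        have := piecePt_disjoint hf hg h
        simp only [c, dif_pos hmi, dif_pos hmj] at this
        exact hij (congr_arg Subtype.val (e.injective (Subtype.ext this)))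

/-- Sufficiency in Conjecture A, up to any volume factor above one, when all but few balls are
small: at most `2 ^ n` balls, or the grid range, are not small. -/
def SufficiencyMixed : Prop :=
  (∀ n : ℕ, 1 ≤ n → ∀ ε : ℝ, 0 < ε → ∃ δ : ℝ, 0 < δ ∧
    ∀ (k : ℕ) (R : ℝ) (r : Fin k → ℝ), 0 < R → (∀ i, 0 < r i) → (∀ i j, i ≠ j → r i + r j < R) →
      Set.ncard {i | δ * R ≤ r i} ≤ 2 ^ n → (1 + ε) * ∑ i, r i ^ n ≤ R ^ n → HasPacking n R r) ∧
  ∀ n m : ℕ, 1 ≤ n → 1 ≤ m → ∀ ε : ℝ, 0 < ε → ∃ δ : ℝ, 0 < δ ∧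
    ∀ (k : ℕ) (R : ℝ) (r : Fin k → ℝ), 0 < R → (∀ i, 0 < r i) → (∀ i j, i ≠ j → r i + r j < R) →
      Set.ncard {i | δ * R ≤ r i} + (m - 1) ^ n ≤ m ^ n + 1 →
      (∃ i0, ∀ i, δ * R ≤ r i → i ≠ i0 → (m : ℝ) * r i < R) →
      (1 + ε) * ∑ i, r i ^ n ≤ R ^ n → HasPacking n R r

theorem hasPacking_grid_small (hn : 1 ≤ n) (hm : 1 ≤ m) {ε : ℝ} (hε : 0 < ε) :
    ∃ δ : ℝ, 0 < δ ∧
    ∀ (k : ℕ) (R : ℝ) (r : Fin k → ℝ), 0 < R → (∀ i, 0 < r i) → (∀ i j, i ≠ j → r i + r j < R) →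
      Set.ncard {i | δ * R ≤ r i} + (m - 1) ^ n ≤ m ^ n + 1 →
      (∃ i0, ∀ i, δ * R ≤ r i → i ≠ i0 → (m : ℝ) * r i < R) →
      (1 + ε) * ∑ i, r i ^ n ≤ R ^ n → HasPacking n R r := by
  classical
  obtain ⟨δ, hδ, h⟩ := hasPacking_pieces_small hn m (m ^ n + 1) hε
  refine ⟨δ, hδ, fun k R r hR hr hp hK ⟨i0, hi0⟩ hv => ?_⟩
  set K := Finset.univ.filter fun i => δ * R ≤ r i
  rw [show {i | δ * R ≤ r i} = (K : Set (Fin k)) by simp [K], Set.ncard_coe_finset] at hK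
  have hsm : ∀ i ∉ K, r i < δ * R := fun i hi => by simpa [K] using hi
  rcases K.eq_empty_or_nonempty with h0 | ⟨a, ha⟩
  · exact h k R r K 0 0 (fun _ _ => ⟨0, hm⟩) 1 hR one_pos hr (by simp [h0]) (by simp [h0])
      (by simp [h0]) hsm hv
  obtain ⟨i1, hi1K, hi1⟩ : ∃ i1 ∈ K, ∀ i ∈ K, i ≠ i1 → (m : ℝ) * r i < R := by
    by_cases hmem : i0 ∈ K
    · exact ⟨i0, hmem, fun i hi => hi0 i (by simpa [K] using hi)⟩
    · exact ⟨a, ha, fun i hi _ => hi0 i (by simpa [K] using hi) fun e => hmem (e ▸ hi)⟩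
  have hR1 : r i1 < R := by
    have h1 := Finset.single_le_sum (f := fun i => r i ^ n) (fun j _ => pow_nonneg (hr j).le n)
      (Finset.mem_univ i1)
    refine lt_of_pow_lt_pow_left₀ n hR.le ?_
    have h2 : 0 < ∑ i, r i ^ n :=
      Finset.sum_pos (fun i _ => pow_pos (hr i) n) ⟨a, Finset.mem_univ a⟩
    nlinarith
  obtain ⟨D, w, c, η, hη, hpc, hsep⟩ := grid_pieces hn hm hr K hK i1 hi1K hR1
    (fun i _ hne => hp i i1 hne) hi1
  exact h k R r K D w c η hR hη hr (by omega) hpc hsep hsm hv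

theorem sufficiencyMixed : SufficiencyMixed := by
  refine ⟨fun n hn ε hε => ?_, fun n m hn hm ε hε => hasPacking_grid_small hn hm hε⟩
  obtain ⟨δ, hδ, h⟩ := hasPacking_grid_small (m := 2) hn (by norm_num) hε
  refine ⟨δ, hδ, fun k R r hR hr hp hK hv => ?_⟩
  rcases Nat.eq_zero_or_pos k with rfl | hk0
  · exact ⟨fun i => i.elim0, fun i => i.elim0, fun i => i.elim0, fun i => i.elim0⟩
  have : Nonempty (Fin k) := ⟨⟨0, hk0⟩⟩
  obtain ⟨i0, hmax⟩ := Finite.exists_max r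
  refine h k R r hR hr hp (by simpa using hK) ⟨i0, fun i _ hne => ?_⟩ hv
  have := hp i i0 hne
  have := hmax i
  push_cast
  linarith

end Vale.Agent.P209
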