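import Vale.Agent.P209.Planar

/-!
Monomial maps: symplectic maps of `(ℂ*)^n` that act by integral affine maps on the moment map.
-/

namespace Vale.Agent.P209

open scoped ContDiff
open Complex (I normSq)

variable {n : ℕ}

/-- The moment map. -/
noncomputable def act (z : Fin n → ℂ) (k : Fin n) : ℝ := Real.pi * normSq (z k)

/-- The affine image of the moment map. -/
noncomputable def act' (A : Matrix (Fin n) (Fin n) ℤ) (b : Fin n → ℝ) (z : Fin n → ℂ) (j : Fin n) : ℝ :=
  (∑ l, (A j l : ℝ) * act z l) + b j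

/-- The real exponent of a monomial map. -/
noncomputable def expo (A B : Matrix (Fin n) (Fin n) ℤ) (b : Fin n → ℝ) (z : Fin n → ℂ) (j : Fin n) : ℝ :=
  (Real.log (act' A b z j / Real.pi) - ∑ k, (B j k : ℝ) * Real.log (normSq (z k))) / 2

/-- The monomial map. -/
noncomputable def monoMap (A B : Matrix (Fin n) (Fin n) ℤ) (b : Fin n → ℝ) (z : Fin n → ℂ) (j : Fin n) : ℂ :=
  (∏ k, z k ^ B j k) * (Real.exp (expo A B b z j) : ℂ)

/-- The domain of a monomial map. -/
def monoDom (A : Matrix (Fin n) (Fin n) ℤ) (b : Fin n → ℝ) : Set (Fin n → ℂ) :=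
  {z | (∀ k, z k ≠ 0) ∧ ∀ j, 0 < act' A b z j}

lemma contDiff_act (k : Fin n) : ContDiff ℝ ∞ fun z : Fin n → ℂ => act z k := by
  unfold act
  simp only [Complex.normSq_apply]
  have hr : ContDiff ℝ ∞ fun z : Fin n → ℂ => (z k).re := Complex.reCLM.contDiff.comp (contDiff_apply ℝ ℂ k)
  have hi : ContDiff ℝ ∞ fun z : Fin n → ℂ => (z k).im := Complex.imCLM.contDiff.comp (contDiff_apply ℝ ℂ k)
  exact contDiff_const.mul ((hr.mul hr).add (hi.mul hi))

lemma contDiff_act' (A : Matrix (Fin n) (Fin n) ℤ) (b : Fin n → ℝ) (j : Fin n) :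
    ContDiff ℝ ∞ fun z : Fin n → ℂ => act' A b z j :=
  (ContDiff.sum fun l _ => contDiff_const.mul (contDiff_act l)).add contDiff_const

lemma isOpen_monoDom (A : Matrix (Fin n) (Fin n) ℤ) (b : Fin n → ℝ) : IsOpen (monoDom A b) := by
  simp only [monoDom, Set.setOf_and, Set.setOf_forall]
  exact (isOpen_iInter_of_finite fun k => isOpen_ne_fun (continuous_apply k) continuous_const).inter
    (isOpen_iInter_of_finite fun j => isOpen_lt continuous_const (contDiff_act' A b j).continuous)

lemma normSq_prod_zpow {z : Fin n → ℂ} (hz : ∀ k, z k ≠ 0) (B : Fin n → ℤ) :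
    normSq (∏ k, z k ^ B k) = Real.exp (∑ k, (B k : ℝ) * Real.log (normSq (z k))) := by
  rw [Real.exp_sum, map_prod]
  refine Finset.prod_congr rfl fun k _ => ?_
  rw [map_zpow₀, ← Real.log_zpow, Real.exp_log (zpow_pos (Complex.normSq_pos.2 (hz k)) _)]

lemma act_monoMap {A B : Matrix (Fin n) (Fin n) ℤ} {b : Fin n → ℝ} {z : Fin n → ℂ}
    (hz : z ∈ monoDom A b) (j : Fin n) : act (monoMap A B b z) j = act' A b z j := by
  have h : normSq (monoMap A B b z j) = act' A b z j / Real.pi := by
    rw [monoMap, map_mul, normSq_prod_zpow hz.1, Complex.normSq_ofReal, ← Real.exp_add, ← Real.exp_add]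
    conv_rhs => rw [← Real.exp_log (div_pos (hz.2 j) Real.pi_pos)]
    congr 1
    simp only [expo]; ring
  rw [act, h]; field_simp

lemma monoMap_injOn {A B : Matrix (Fin n) (Fin n) ℤ} (hBA : B.transpose * A = 1) (b : Fin n → ℝ) :
    Set.InjOn (monoMap A B b) (monoDom A b) := by
  intro z hz w hw h
  have hAB : A * B.transpose = 1 := mul_eq_one_comm.1 hBA
  have ha : ∀ j, act' A b z j = act' A b w j := fun j => by
    rw [← act_monoMap (B := B) hz, ← act_monoMap (B := B) hw, h]
  have hact : ∀ l, act z l = act w l := by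
    have h1 : (A.map (Int.cast : ℤ → ℝ)).mulVec (act z) = (A.map (Int.cast : ℤ → ℝ)).mulVec (act w) := by
      funext j
      have := ha j
      simpa [act', Matrix.mulVec, dotProduct] using this
    have hinv : B.transpose.map (Int.cast : ℤ → ℝ) * A.map (Int.cast : ℤ → ℝ) = 1 := by
      have := congr_arg (fun M : Matrix (Fin n) (Fin n) ℤ => (Int.castRingHom ℝ).mapMatrix M) hBA
      simpa only [map_mul, map_one, RingHom.mapMatrix_apply, Int.coe_castRingHom] using this
    intro l
    have h2 := congr_arg (fun v => (B.transpose.map (Int.cast : ℤ → ℝ)).mulVec v) h1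
    simp only [Matrix.mulVec_mulVec, hinv, Matrix.one_mulVec] at h2
    exact congr_fun h2 l
  have hn : ∀ k, normSq (z k) = normSq (w k) := fun k => by
    have := hact k
    simpa [act, Real.pi_ne_zero] using this
  have hq : ∀ j, ∏ k, (z k / w k) ^ B j k = 1 := by
    intro j
    have := congr_fun h j
    simp only [monoMap, expo, ha, hn] at this
    rw [mul_left_inj' (Complex.ofReal_ne_zero.2 (Real.exp_ne_zero _))] at this
    simp only [div_zpow]
    rw [Finset.prod_div_distrib, this, div_self]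
    exact Finset.prod_ne_zero_iff.2 fun k _ => zpow_ne_zero _ (hw.1 k)
  funext l
  have hq0 : ∀ k, z k / w k ≠ 0 := fun k => div_ne_zero (hz.1 k) (hw.1 k)
  have : ∏ k, (z k / w k) ^ (∑ j, B j k * A j l) = 1 := by
    have hsum : ∀ (x : ℂ) (_ : x ≠ 0) (t : Finset (Fin n)) (e : Fin n → ℤ),
        x ^ (∑ j ∈ t, e j) = ∏ j ∈ t, x ^ e j := by
      intro x hx t e
      induction t using Finset.induction_on with
      | empty => simp
      | insert j t hj ih => rw [Finset.sum_insert hj, Finset.prod_insert hj, zpow_add₀ hx, ih]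
    have hs : ∀ k, (z k / w k) ^ (∑ j, B j k * A j l) = ∏ j, ((z k / w k) ^ B j k) ^ A j l := fun k => by
      rw [hsum _ (hq0 k)]; simp only [zpow_mul]
    simp only [hs]
    rw [Finset.prod_comm]
    simp [Finset.prod_zpow, hq]
  have hone : ∀ k, (∑ j, B j k * A j l) = if k = l then 1 else 0 := fun k => by
    simpa [Matrix.mul_apply, Matrix.one_apply] using congr_fun (congr_fun hBA k) l
  simp only [hone] at this
  rw [Finset.prod_eq_single l (fun k _ hk => by simp [hk]) (by simp)] at this
  simpa [div_eq_one_iff_eq (hw.1 l)] using this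

lemma hasFDerivAt_prod_zpow {z : Fin n → ℂ} (hz : ∀ k, z k ≠ 0) (B : Fin n → ℤ) (s : Finset (Fin n)) :
    ∃ D : (Fin n → ℂ) →L[ℝ] ℂ, HasFDerivAt (fun y : Fin n → ℂ => ∏ k ∈ s, y k ^ B k) D z ∧
      ∀ u, D u = (∏ k ∈ s, z k ^ B k) * ∑ k ∈ s, (B k : ℂ) * (u k / z k) := by
  induction s using Finset.induction_on with
  | empty => exact ⟨0, by simpa using hasFDerivAt_const (1 : ℂ) z, fun u => by simp⟩
  | insert a s ha ih =>
    obtain ⟨D, hD, hDu⟩ := ih
    have h1 := ((hasDerivAt_zpow (B a) (z a) (Or.inl (hz a))).hasFDerivAt.restrictScalars ℝ).comp z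
      (hasFDerivAt_apply (𝕜 := ℝ) (F' := fun _ : Fin n => ℂ) a z)
    refine ⟨_, (h1.mul hD).congr_of_eventuallyEq (Filter.Eventually.of_forall fun y => by
      simp [Finset.prod_insert ha]), fun u => ?_⟩
    have hz' : z a ^ (B a - 1) = z a ^ B a / z a := by rw [zpow_sub_one₀ (hz a), div_eq_mul_inv]
    simp [Finset.prod_insert ha, Finset.sum_insert ha, hDu, hz']
    ring

lemma hasFDerivAt_act (z : Fin n → ℂ) (k : Fin n) :
    ∃ D : (Fin n → ℂ) →L[ℝ] ℝ, HasFDerivAt (fun y : Fin n → ℂ => act y k) D z ∧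
      ∀ u, D u = 2 * Real.pi * ((z k).re * (u k).re + (z k).im * (u k).im) := by
  have hp := hasFDerivAt_apply (𝕜 := ℝ) (F' := fun _ : Fin n => ℂ) k z
  have hre := Complex.reCLM.hasFDerivAt.comp z hp
  have him := Complex.imCLM.hasFDerivAt.comp z hp
  refine ⟨_, (((hre.mul hre).add (him.mul him)).const_mul Real.pi).congr_of_eventuallyEq
    (Filter.Eventually.of_forall fun y => by simp [act, Complex.normSq_apply]), fun u => ?_⟩
  simp; ring

lemma monoMap_omega {A B : Matrix (Fin n) (Fin n) ℤ} (hBA : B.transpose * A = 1) {b : Fin n → ℝ}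
    {z : Fin n → ℂ} (hz : z ∈ monoDom A b) (u v : Fin n → ℂ) :
    omega0 (fderiv ℝ (monoMap A B b) z u) (fderiv ℝ (monoMap A B b) z v) = omega0 u v := by
  choose D hD hDu using fun k => hasFDerivAt_act z k
  choose P hP hPu using fun j => hasFDerivAt_prod_zpow hz.1 (B j) Finset.univ
  let M : Fin n → (Fin n → ℂ) →L[ℝ] ℝ := fun j => ∑ l, (A j l : ℝ) • D l
  have hM : ∀ j, HasFDerivAt (fun y => act' A b y j) (M j) z := fun j =>
    (HasFDerivAt.fun_sum fun l _ => (hD l).const_mul _).add_const _
  have hns : ∀ k, HasFDerivAt (fun y : Fin n → ℂ => normSq (y k)) (Real.pi⁻¹ • D k) z := fun k =>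
    ((hD k).const_mul Real.pi⁻¹).congr_of_eventuallyEq
      (Filter.Eventually.of_forall fun y => by simp [act])
  let X : Fin n → (Fin n → ℂ) →L[ℝ] ℝ := fun j => ((1 : ℝ) / 2) •
    ((act' A b z j * Real.pi⁻¹)⁻¹ • Real.pi⁻¹ • M j -
      ∑ k, (B j k : ℝ) • (normSq (z k))⁻¹ • Real.pi⁻¹ • D k)
  have hX : ∀ j, HasFDerivAt (fun y => expo A B b y j) (X j) z := fun j =>
    (((((hM j).mul_const Real.pi⁻¹).log (by have := hz.2 j; positivity)).sub
      (HasFDerivAt.fun_sum fun k _ =>
        ((hns k).log (Complex.normSq_pos.2 (hz.1 k)).ne').const_mul (B j k : ℝ))).mul_const ((1 : ℝ) / 2)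
      ).congr_of_eventuallyEq (Filter.Eventually.of_forall fun y => by simp [expo, div_eq_mul_inv])
  have hall : HasFDerivAt (monoMap A B b) _ z :=
    hasFDerivAt_pi.2 fun j => (hP j).mul (Complex.ofRealCLM.hasFDerivAt.comp z (hX j).exp)
  let T : (Fin n → ℂ) → Fin n → ℂ := fun x j =>
    ((M j x / (2 * act' A b z j) : ℝ) : ℂ) + ((∑ k, (B j k : ℝ) * (x k / z k).im : ℝ) : ℂ) * I
  have hT : ∀ x j, (X j x : ℂ) + ∑ k, (B j k : ℂ) * (x k / z k) = T x j := by
    intro x j
    have hXr : X j x = M j x / (2 * act' A b z j) - ∑ k, (B j k : ℝ) * (x k / z k).re := by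
      have h2 : ∀ k, (normSq (z k))⁻¹ * (Real.pi⁻¹ * D k x) = 2 * (x k / z k).re := fun k => by
        rw [hDu, Complex.div_re]
        field_simp
      simp [X, h2, mul_sub, Finset.mul_sum]
      congr 1
      · field_simp
      · exact Finset.sum_congr rfl fun k _ => by ring
    apply Complex.ext <;> simp only [T, Complex.add_re, Complex.add_im, Complex.ofReal_re,
      Complex.ofReal_im, Complex.mul_re, Complex.mul_im, Complex.I_re, Complex.I_im, Complex.re_sum,
      Complex.im_sum, Complex.intCast_re, Complex.intCast_im, hXr] <;> ring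
  have hd : ∀ x j, fderiv ℝ (monoMap A B b) z x j = monoMap A B b z j * T x j := by
    intro x j
    rw [hall.fderiv, ← hT]
    simp [hPu, monoMap]
    ring
  simp only [omega0, hd]
  have harea : ∀ j, normSq (monoMap A B b z j) = act' A b z j / Real.pi := fun j => by
    have := act_monoMap (B := B) hz j
    rw [← this, act]; field_simp
  calc ∑ j, ((monoMap A B b z j * T u j).re * (monoMap A B b z j * T v j).im
          - (monoMap A B b z j * T u j).im * (monoMap A B b z j * T v j).re)
      = ∑ j, (1 / (2 * Real.pi)) * (M j u * ∑ k, (B j k : ℝ) * (v k / z k).im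
          - M j v * ∑ k, (B j k : ℝ) * (u k / z k).im) := by
        refine Finset.sum_congr rfl fun j _ => ?_
        have h := area_mul (monoMap A B b z j) (T u j) (T v j)
        simp only [area] at h
        rw [h, harea]
        have := (hz.2 j).ne'
        simp only [T, Complex.add_re, Complex.add_im, Complex.ofReal_re,
          Complex.ofReal_im, Complex.mul_re, Complex.mul_im, Complex.I_re, Complex.I_im]
        field_simp
        ring
    _ = ∑ l, (1 / (2 * Real.pi)) * (D l u * (v l / z l).im - D l v * (u l / z l).im) := by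
        have hone : ∀ k l, (∑ j, (B j k : ℝ) * (A j l : ℝ)) = if k = l then 1 else 0 := fun k l => by
          have := congr_fun (congr_fun hBA k) l
          simp only [Matrix.mul_apply, Matrix.transpose_apply, Matrix.one_apply] at this
          exact_mod_cast this
        have hsum : ∀ (f : Fin n → ℝ) (g : Fin n → ℝ),
            ∑ j, (∑ l, (A j l : ℝ) * f l) * (∑ k, (B j k : ℝ) * g k) = ∑ l, f l * g l := by
          intro f g
          simp only [Finset.sum_mul, Finset.mul_sum]
          rw [Finset.sum_comm]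
          refine Finset.sum_congr rfl fun l _ => ?_
          rw [Finset.sum_comm]
          have : ∀ k, ∑ j, (A j k : ℝ) * f k * ((B j l : ℝ) * g l) = f k * g l * if l = k then 1 else 0 :=
            fun k => by rw [← hone, Finset.mul_sum]; exact Finset.sum_congr rfl fun j _ => by ring
          rw [Finset.sum_congr rfl fun k _ => this k]
          simp
        simp only [← Finset.mul_sum, Finset.sum_sub_distrib]
        simp only [M, ContinuousLinearMap.sum_apply, ContinuousLinearMap.coe_smul', Pi.smul_apply, smul_eq_mul]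
        rw [hsum (fun l => D l u), hsum (fun l => D l v)]
    _ = ∑ l, ((u l).re * (v l).im - (u l).im * (v l).re) := by
        refine Finset.sum_congr rfl fun l _ => ?_
        have hne := hz.1 l
        obtain ⟨p, hp⟩ : ∃ p, u l = p * z l := ⟨u l / z l, (div_mul_cancel₀ _ hne).symm⟩
        obtain ⟨q, hq⟩ : ∃ q, v l = q * z l := ⟨v l / z l, (div_mul_cancel₀ _ hne).symm⟩
        rw [hDu, hDu, hp, hq, mul_div_cancel_right₀ _ hne, mul_div_cancel_right₀ _ hne]
        simp only [Complex.mul_re, Complex.mul_im]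
        field_simp
        ring

lemma contDiffAt_monoMap {A B : Matrix (Fin n) (Fin n) ℤ} {b : Fin n → ℝ} {z : Fin n → ℂ}
    (hz : z ∈ monoDom A b) : ContDiffAt ℝ ∞ (monoMap A B b) z := by
  refine contDiffAt_pi.2 fun j => ?_
  refine (contDiffAt_prod fun k _ => ?_).mul
    (Complex.ofRealCLM.contDiff.contDiffAt.comp z (ContDiffAt.exp ?_))
  · have hd : DifferentiableOn ℂ (fun w : ℂ => w ^ B j k) {0}ᶜ :=
      differentiableOn_zpow _ _ (Or.inl fun h => h rfl)
    exact (((hd.contDiffOn isOpen_compl_singleton (n := ∞)).contDiffAt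
      (isOpen_compl_singleton.mem_nhds (hz.1 k))).restrict_scalars ℝ).comp z (contDiff_apply ℝ ℂ k).contDiffAt
  · have hns : ∀ k, ContDiffAt ℝ ∞ (fun y : Fin n → ℂ => normSq (y k)) z := fun k => by
      have := ((contDiff_act (n := n) k).const_smul Real.pi⁻¹).contDiffAt (x := z)
      simpa [act, ← mul_assoc, Real.pi_ne_zero] using this
    exact ((((contDiff_act' A b j).contDiffAt.div_const _).log (by have := hz.2 j; positivity)).sub
      (ContDiffAt.sum fun k _ => contDiffAt_const.mul ((hns k).log (Complex.normSq_pos.2 (hz.1 k)).ne'))).div_const _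

end Vale.Agent.P209
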