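import Vale.Agent.P209.Main

/-!
The packing theorems for P209.
-/

namespace Vale.Agent.P209

open scoped Topology
open Filter

lemma card_top_words (n m : ℕ) (hm : 1 ≤ m) :
    Fintype.card {c : Fin n → Fin m // ∃ t, (c t : ℕ) = m - 1} + (m - 1) ^ n = m ^ n := by
  have h1 : Fintype.card {c : Fin n → Fin m // ¬∃ t, (c t : ℕ) = m - 1} = (m - 1) ^ n := by
    rw [show (m - 1) ^ n = Fintype.card (Fin n → Fin (m - 1)) by simp]
    refine Fintype.card_congr
      { toFun := fun c t => ⟨c.1 t, by have := (c.1 t).2; have h := not_exists.1 c.2 t; lia⟩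
        invFun := fun d => ⟨fun t => ⟨d t, by have := (d t).2; lia⟩, by
          rintro ⟨t, ht⟩; have := (d t).2; simp at ht; lia⟩
        left_inv := fun c => by ext; rfl
        right_inv := fun d => by funext t; rfl }
  have h2 := Fintype.card_subtype_compl (fun c : Fin n → Fin m => ∃ t, (c t : ℕ) = m - 1)
  have h3 := Fintype.card_subtype_le (fun c : Fin n → Fin m => ∃ t, (c t : ℕ) = m - 1)
  simp only [Fintype.card_pi, Fintype.card_fin, Finset.prod_const, Finset.card_univ] at h2 h3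
  omega

/-- All balls but one have capacity below `R / m`. -/
theorem hasPacking_grid {n m k : ℕ} (hn : 1 ≤ n) (hm : 1 ≤ m) (hk : k + (m - 1) ^ n ≤ m ^ n + 1)
    {R : ℝ} {r : Fin k → ℝ} (hr : ∀ i, 0 < r i) (i0 : Fin k) (h0 : r i0 < R)
    (hpair : ∀ i, i ≠ i0 → r i + r i0 < R) (hsmall : ∀ i, i ≠ i0 → (m : ℝ) * r i < R) :
    HasPacking n R r := by
  classical
  have hm' : (0 : ℝ) < m := Nat.cast_pos.2 hm
  obtain ⟨δ, ⟨hδ0, hδ, hδs⟩⟩ : ∃ δ, 0 < δ ∧ r i0 + δ < R ∧
      ∀ i, i ≠ i0 → r i + r i0 + 2 * δ < R ∧ (m : ℝ) * (r i + δ) < R := by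
    have c1 : Continuous fun δ : ℝ => r i0 + δ := by fun_prop
    have e1 : ∀ᶠ δ in 𝓝 (0 : ℝ), r i0 + δ < R :=
      (c1.tendsto' 0 (r i0) (by simp)).eventually_lt_const h0
    have e2 : ∀ᶠ δ in 𝓝 (0 : ℝ), ∀ i, i ≠ i0 → r i + r i0 + 2 * δ < R ∧ (m : ℝ) * (r i + δ) < R := by
      refine eventually_all.2 fun i => ?_
      by_cases hi : i = i0
      · exact Eventually.of_forall fun _ h => absurd hi h
      have ca : Continuous fun δ : ℝ => r i + r i0 + 2 * δ := by fun_prop
      have cb : Continuous fun δ : ℝ => (m : ℝ) * (r i + δ) := by fun_prop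
      filter_upwards [(ca.tendsto' 0 (r i + r i0) (by simp)).eventually_lt_const (hpair i hi),
        (cb.tendsto' 0 ((m : ℝ) * r i) (by simp)).eventually_lt_const (hsmall i hi)] with δ ha hb _
        using ⟨ha, hb⟩
    have e0 : ∀ᶠ δ in 𝓝[>] (0 : ℝ), δ ∈ Set.Ioi (0 : ℝ) := self_mem_nhdsWithin
    exact (e0.and ((e1.and e2).filter_mono nhdsWithin_le_nhds)).exists
  set w := min (R / m) (R - r i0 - δ)
  have hwle : ∀ i, i ≠ i0 → r i + δ ≤ w := fun i hi => by
    refine le_min ?_ ?_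
    · rw [le_div_iff₀ hm']; linarith [(hδs i hi).2]
    · linarith [(hδs i hi).1]
  have hmw : (m : ℝ) * w ≤ R := by
    have h : w ≤ R / m := min_le_left _ _
    rw [le_div_iff₀ hm'] at h
    linarith
  set D := R - m * w
  have hD : 0 ≤ D := by linarith
  obtain ⟨e⟩ : Nonempty ({i // i ≠ i0} ↪ {c : Fin n → Fin m // ∃ t, (c t : ℕ) = m - 1}) := by
    refine Function.Embedding.nonempty_of_card_le ?_
    have := card_top_words n m hm
    simp [Fintype.card_subtype_compl]
    omega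
  have hbig := exists_piece (R := R) (r := r i0) (δ := δ) (D := 0) (w := r i0 + δ) (m := 1) hn (hr i0).le hδ0
    le_rfl le_rfl (fun _ => 0) (fun f _ hlt i => by simp [piecePt, pieceShift]; linarith [hlt (Tuple.sort (fun _ : Fin n => (0 : Fin 1)) i)])
  have hsmallP : ∀ i (hi : i ≠ i0), _ := fun i hi =>
    exists_piece (R := R) (r := r i) (δ := δ) (D := D) (w := w) (m := m) hn (hr i).le hδ0 (hwle i hi) hD
      (e ⟨i, hi⟩).1 (fun f hf _ j => (piecePt_lt hf j).trans_le (by simp [D]))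
  obtain ⟨U0, φ0, hU0, hφ0, hm0, hc0⟩ := hbig
  choose U φ hU hφ hmaps hc using hsmallP
  let last : Fin n := ⟨n - 1, by lia⟩
  have hsep : ∀ i (hi : i ≠ i0), ∀ x ∈ U i hi, ∀ y ∈ U0, φ i hi x ≠ φ0 y := by
    intro i hi x hx y hy h
    obtain ⟨f, hf, -, hfx⟩ := hc i hi x hx
    obtain ⟨g, hg, hglt, hgy⟩ := hc0 y hy
    rw [h, hgy] at hfx
    have h1 := congr_fun hfx last
    obtain ⟨t, ht⟩ := (e ⟨i, hi⟩).2
    set c := (e ⟨i, hi⟩).1
    have hle : c t ≤ c (Tuple.sort c last) := by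
      have := Tuple.monotone_sort c (show (Tuple.sort c).symm t ≤ last from by
        have := ((Tuple.sort c).symm t).2; simp [last, Fin.le_def]; lia)
      simpa using this
    have hd : ((m - 1 : ℕ) : ℝ) ≤ ((c (Tuple.sort c last) : ℕ) : ℝ) := by
      rw [← ht]; exact_mod_cast hle
    rw [Nat.cast_sub hm] at hd
    push_cast at hd
    simp only [piecePt, pieceShift] at h1
    have hw2 : w ≤ R - r i0 - δ := min_le_right _ _
    have hfpos := (hf.2 (Tuple.sort c last)).1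
    have hglast := hglt (Tuple.sort (fun _ : Fin n => (0 : Fin 1)) last)
    have hw0 : 0 < w := lt_of_lt_of_le (by linarith [hr i]) (hwle i hi)
    simp at h1
    nlinarith [mul_le_mul_of_nonneg_right hd hw0.le]
  refine ⟨fun i => if hi : i = i0 then φ0 else φ i hi, fun i => ?_, fun i => ?_, fun i j hij => ?_⟩
  · by_cases hi : i = i0
    · subst hi; simp only [dite_true]; exact ⟨U0, hU0, hφ0⟩
    · simp only [dif_neg hi]; exact ⟨U i hi, hU i hi, hφ i hi⟩
  · by_cases hi : i = i0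
    · subst hi; simp only [dite_true]; exact hm0
    · simp only [dif_neg hi]; exact hmaps i hi
  · dsimp only
    rw [Set.disjoint_left]
    rintro p ⟨x, hx, rfl⟩ ⟨y, hy, he⟩
    by_cases hi : i = i0 <;> by_cases hj : j = i0
    · exact hij (hi.trans hj.symm)
    · subst hi
      simp only [dite_true, dif_neg hj] at he
      exact hsep j hj y (hU j hj hy) x (hU0 hx) he
    · subst hj
      simp only [dite_true, dif_neg hi] at he
      exact hsep i hi x (hU i hi hx) y (hU0 hy) he.symm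
    · simp only [dif_neg hi, dif_neg hj] at he
      obtain ⟨f, hf, -, hfx⟩ := hc i hi x (hU i hi hx)
      obtain ⟨g, hg, -, hgy⟩ := hc j hj y (hU j hj hy)
      rw [he, hfx] at hgy
      exact hij (congr_arg Subtype.val (e.injective (Subtype.ext (piecePt_disjoint hf hg hgy))))

/-- Siegel and Yao's Conjecture A, sufficiency, for at most `2^n` balls, and its grid extension. -/
def SufficiencyUpToTwoPowN : Prop :=
  (∀ n k : ℕ, 1 ≤ n → k ≤ 2 ^ n → ∀ (R : ℝ) (r : Fin k → ℝ), 0 < R → (∀ i, 0 < r i) →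
      ∑ i, r i ^ n < R ^ n → (∀ i j, i ≠ j → r i + r j < R) → HasPacking n R r) ∧
  ∀ n m k : ℕ, 1 ≤ n → 1 ≤ m → k + (m - 1) ^ n ≤ m ^ n + 1 → ∀ (R : ℝ) (r : Fin k → ℝ), 0 < R →
      (∀ i, 0 < r i) → ∑ i, r i ^ n < R ^ n → (∀ i j, i ≠ j → r i + r j < R) →
      (∃ i0, ∀ i, i ≠ i0 → (m : ℝ) * r i < R) → HasPacking n R r

theorem sufficiencyUpToTwoPowN : SufficiencyUpToTwoPowN := by
  have hlt : ∀ (n k : ℕ) (R : ℝ) (r : Fin k → ℝ), 0 < R → (∀ i, 0 < r i) → ∑ i, r i ^ n < R ^ n →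
      ∀ i, r i < R := by
    intro n k R r hR hr hv i
    refine lt_of_pow_lt_pow_left₀ n hR.le (lt_of_le_of_lt ?_ hv)
    exact Finset.single_le_sum (f := fun i => r i ^ n) (fun j _ => pow_nonneg (hr j).le n) (Finset.mem_univ i)
  refine ⟨fun n k hn hk R r hR hr hv hp => ?_, fun n m k hn hm hk R r hR hr hv hp ⟨i0, hi0⟩ =>
    hasPacking_grid hn hm hk hr i0 (hlt n k R r hR hr hv i0) (fun i hi => hp i i0 hi) hi0⟩
  rcases Nat.eq_zero_or_pos k with rfl | hk0
  · exact ⟨fun i => i.elim0, fun i => i.elim0, fun i => i.elim0, fun i => i.elim0⟩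
  have : Nonempty (Fin k) := ⟨⟨0, hk0⟩⟩
  obtain ⟨i0, hmax⟩ := Finite.exists_max r
  refine hasPacking_grid (m := 2) hn (by norm_num) (by simpa using hk) hr i0 (hlt n k R r hR hr hv i0)
    (fun i hi => hp i i0 hi) fun i hi => ?_
  have := hp i i0 hi
  have := hmax i
  push_cast
  linarith

end Vale.Agent.P209
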