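import Vale.Agent.P209.Defs

/-!
An area-preserving injective smooth map of the plane that pushes a disc off the origin while
hardly increasing the distance to the origin.
-/

namespace Vale.Agent.P209

open scoped ContDiff
open Complex (I normSq)

/-- The area form on `ℂ`. -/
def area (u v : ℂ) : ℝ := u.re * v.im - u.im * v.re

lemma area_mul (a u v : ℂ) : area (a * u) (a * v) = normSq a * area u v := by
  simp [area, Complex.normSq_apply]; ring

lemma area_add_shear (u v w : ℂ) (k : ℝ) :
    area (u + ((k * (w.re * u.re + w.im * u.im) : ℝ) : ℂ) * (I * w))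
      (v + ((k * (w.re * v.re + w.im * v.im) : ℝ) : ℂ) * (I * w)) = area u v := by
  simp [area]; ring

/-- A smooth injective area-preserving map of the plane. -/
structure IsAreaPres (f : ℂ → ℂ) : Prop where
  smooth : ContDiff ℝ ∞ f
  inj : Function.Injective f
  area_eq : ∀ z u v, area (fderiv ℝ f z u) (fderiv ℝ f z v) = area u v

lemma IsAreaPres.id' : IsAreaPres (fun z : ℂ => z) :=
  ⟨contDiff_id, fun _ _ h => h, fun z u v => by simp⟩

lemma IsAreaPres.comp {f g : ℂ → ℂ} (hf : IsAreaPres f) (hg : IsAreaPres g) :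
    IsAreaPres (f ∘ g) where
  smooth := hf.smooth.comp hg.smooth
  inj := hf.inj.comp hg.inj
  area_eq z u v := by
    rw [fderiv_comp z (hf.smooth.differentiable (by simp) _) (hg.smooth.differentiable (by simp) _)]
    simp [hf.area_eq, hg.area_eq]

/-- The rotation profile. -/
noncomputable def angle (s x : ℝ) : ℝ :=
  Real.pi * Real.smoothTransition ((4 * s ^ 2 - x) / (3 * s ^ 2))

lemma contDiff_angle (s : ℝ) : ContDiff ℝ ∞ (angle s) :=
  contDiff_const.mul (Real.smoothTransition.contDiff.comp ((contDiff_const.sub contDiff_id).div_const _))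

lemma angle_sq {s : ℝ} (hs : s ≠ 0) : angle s (s ^ 2) = Real.pi := by
  rw [angle, show (4 * s ^ 2 - s ^ 2) / (3 * s ^ 2) = 1 by field_simp; ring,
    Real.smoothTransition.one, mul_one]

lemma angle_eq_zero {s x : ℝ} (hx : 4 * s ^ 2 ≤ x) : angle s x = 0 := by
  rw [angle, Real.smoothTransition.zero_of_nonpos
    (div_nonpos_of_nonpos_of_nonneg (by linarith) (by positivity)), mul_zero]

/-- Twist about `c`. -/
noncomputable def twist (c : ℂ) (s : ℝ) (z : ℂ) : ℂ :=
  c + Complex.exp ((angle s (normSq (z - c)) : ℂ) * I) * (z - c)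

lemma norm_twist_sub (c : ℂ) (s : ℝ) (z : ℂ) : ‖twist c s z - c‖ = ‖z - c‖ := by
  simp [twist, Complex.norm_exp]

lemma twist_eq_self {c : ℂ} {s : ℝ} (hs : 0 ≤ s) {z : ℂ} (hz : 2 * s ≤ ‖z - c‖) :
    twist c s z = z := by
  have : 4 * s ^ 2 ≤ normSq (z - c) := by
    rw [← Complex.sq_norm]; nlinarith
  simp [twist, angle_eq_zero this]

lemma twist_flip {c : ℂ} {s : ℝ} (hs : s ≠ 0) : twist c s (c + s) = c - s := by
  simp [twist, angle_sq hs, ← pow_two, Complex.exp_pi_mul_I, sub_eq_add_neg]

lemma twist_injective (c : ℂ) (s : ℝ) : Function.Injective (twist c s) := by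
  intro z z' h
  have hn : normSq (z - c) = normSq (z' - c) := by
    rw [← Complex.sq_norm, ← Complex.sq_norm, ← norm_twist_sub c s z, ← norm_twist_sub c s z', h]
  simp only [twist, hn, add_right_inj, mul_right_inj' (Complex.exp_ne_zero _), sub_left_inj] at h
  exact h

lemma contDiff_normSq_sub (c : ℂ) : ContDiff ℝ ∞ fun z : ℂ => normSq (z - c) := by
  simp only [Complex.normSq_apply]
  have hr : ContDiff ℝ ∞ fun z : ℂ => (z - c).re := Complex.reCLM.contDiff.comp (contDiff_id.sub contDiff_const)
  have hi : ContDiff ℝ ∞ fun z : ℂ => (z - c).im := Complex.imCLM.contDiff.comp (contDiff_id.sub contDiff_const)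
  exact (hr.mul hr).add (hi.mul hi)

lemma contDiff_twist (c : ℂ) (s : ℝ) : ContDiff ℝ ∞ (twist c s) :=
  contDiff_const.add ((((Complex.ofRealCLM.contDiff.comp
    ((contDiff_angle s).comp (contDiff_normSq_sub c))).mul contDiff_const).cexp).mul
      (contDiff_id.sub contDiff_const))

lemma twist_isAreaPres (c : ℂ) (s : ℝ) : IsAreaPres (twist c s) where
  smooth := contDiff_twist c s
  inj := twist_injective c s
  area_eq z u v := by
    have hw : HasFDerivAt (fun y : ℂ => y - c) (ContinuousLinearMap.id ℝ ℂ) z :=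
      (hasFDerivAt_id z).sub_const c
    have hre := Complex.reCLM.hasFDerivAt.comp z hw
    have him := Complex.imCLM.hasFDerivAt.comp z hw
    have hns := (hre.mul hre).add (him.mul him)
    set k := deriv (angle s) (normSq (z - c))
    have hang : HasDerivAt (angle s) k (normSq (z - c)) :=
      ((contDiff_angle s).differentiable (by simp) _).hasDerivAt
    have hθ : HasFDerivAt (fun y : ℂ => angle s (normSq (y - c))) _ z :=
      hang.comp_hasFDerivAt z (f := fun y : ℂ => normSq (y - c))
        (hns.congr_of_eventuallyEq (Filter.Eventually.of_forall fun y => by simp [Complex.normSq_apply]))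
    have htw := (((Complex.ofRealCLM.hasFDerivAt.comp z hθ).mul_const I).cexp.mul hw).const_add c
    have hd : ∀ x : ℂ, fderiv ℝ (twist c s) z x = Complex.exp ((angle s (normSq (z - c)) : ℂ) * I) *
        (x + ((2 * k * ((z - c).re * x.re + (z - c).im * x.im) : ℝ) : ℂ) * (I * (z - c))) := fun x => by
      rw [show fderiv ℝ (twist c s) z = _ from HasFDerivAt.fderiv htw]
      simp [Complex.real_smul]
      ring
    rw [hd, hd, area_mul, area_add_shear, ← Complex.sq_norm, Complex.norm_exp_ofReal_mul_I]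
    ring

/-- A chain of twists moving inward along a ray. -/
noncomputable def chain (L : ℝ) (N : ℕ) : ℕ → ℂ → ℂ
  | 0 => fun z => z
  | k + 1 => twist ((L * (1 - (2 * k + 1) / (2 * N)) : ℝ) : ℂ) (L / (2 * N)) ∘ chain L N k

lemma chain_isAreaPres (L : ℝ) (N : ℕ) : ∀ k, IsAreaPres (chain L N k)
  | 0 => IsAreaPres.id'
  | k + 1 => (twist_isAreaPres _ _).comp (chain_isAreaPres L N k)

lemma chain_start {L : ℝ} (hL : L ≠ 0) {N : ℕ} (hN : N ≠ 0) :
    ∀ k, chain L N k (L : ℂ) = ((L * (1 - k / N) : ℝ) : ℂ)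
  | 0 => by simp [chain]
  | k + 1 => by
    have hN' : (N : ℝ) ≠ 0 := Nat.cast_ne_zero.2 hN
    simp only [chain, Function.comp_apply]
    rw [chain_start hL hN k]
    have h1 : (L * (1 - k / N) : ℝ) = L * (1 - (2 * k + 1) / (2 * N)) + L / (2 * N) := by
      field_simp; ring
    rw [h1, Complex.ofReal_add, twist_flip (by positivity), ← Complex.ofReal_sub]
    push_cast
    field_simp
    ring

lemma chain_bound {L : ℝ} (hL : 0 < L) {N : ℕ} (hN : 0 < N) (z : ℂ) :
    ∀ k ≤ N, chain L N k z = z ∨
      (‖chain L N k z‖ ≤ ‖z‖ + 2 * (L / N) ∧ L * (1 - (2 * k + 1) / (2 * N)) ≤ ‖z‖ + L / N) := by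
  intro k hk
  induction k with
  | zero => exact Or.inl rfl
  | succ k ih =>
    have hN' : (0 : ℝ) < N := Nat.cast_pos.2 hN
    set c : ℝ := L * (1 - (2 * k + 1) / (2 * N))
    set y := chain L N k z
    have hc0 : 0 ≤ c := mul_nonneg hL.le (by
      rw [sub_nonneg, div_le_one (by positivity)]
      have : ((k + 1 : ℕ) : ℝ) ≤ N := by exact_mod_cast hk
      push_cast at this; linarith)
    have hdec : L * (1 - (2 * ((k + 1 : ℕ) : ℝ) + 1) / (2 * N)) ≤ c := by
      refine mul_le_mul_of_nonneg_left (sub_le_sub_left ?_ 1) hL.le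
      gcongr; push_cast; linarith
    have hs : 2 * (L / (2 * N)) = L / N := by field_simp
    have hstep : chain L N (k + 1) z = twist (c : ℂ) (L / (2 * N)) y := rfl
    by_cases hy : L / N ≤ ‖y - c‖
    · rw [hstep, twist_eq_self (by positivity) (hs ▸ hy)]
      rcases ih (by lia) with h | ⟨h1, h2⟩
      · exact Or.inl h
      · exact Or.inr ⟨h1, hdec.trans h2⟩
    · right
      push Not at hy
      have hcz : c ≤ ‖z‖ + L / N := by
        rcases ih (by lia) with h | ⟨-, h2⟩
        · rw [show y = z from h] at hy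
          have := norm_sub_norm_le (c : ℂ) z
          rw [norm_sub_rev, Complex.norm_real, Real.norm_of_nonneg hc0] at this
          linarith
        · exact h2
      refine ⟨?_, hdec.trans hcz⟩
      have := norm_sub_norm_le (chain L N (k + 1) z) (c : ℂ)
      rw [hstep, norm_twist_sub, Complex.norm_real, Real.norm_of_nonneg hc0] at this
      rw [hstep]; linarith

/-- The planar map used in each coordinate. -/
lemma exists_planar {L ε : ℝ} (hL : 0 < L) (hε : 0 < ε) :
    ∃ f : ℂ → ℂ, IsAreaPres f ∧ ∀ z, ‖z‖ < L → f z ≠ 0 ∧ ‖f z‖ ^ 2 ≤ ‖z‖ ^ 2 + ε := by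
  obtain ⟨N, hN⟩ := exists_nat_gt (8 * L ^ 2 / ε)
  have hN0 : 0 < N := by
    have : (0 : ℝ) < N := lt_of_le_of_lt (by positivity) hN
    exact_mod_cast this
  refine ⟨chain L N N, chain_isAreaPres L N N, fun z hz => ⟨fun h0 => ?_, ?_⟩⟩
  · have h1 : chain L N N (L : ℂ) = 0 := by
      rw [chain_start hL.ne' hN0.ne' N, div_self (by positivity)]; simp
    have h2 := (chain_isAreaPres L N N).inj (h0.trans h1.symm)
    rw [h2, Complex.norm_real, Real.norm_of_nonneg hL.le] at hz
    exact lt_irrefl _ hz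
  · rcases chain_bound hL hN0 z N le_rfl with h | ⟨h, -⟩
    · rw [h]; linarith
    · have hN' : (1 : ℝ) ≤ N := Nat.one_le_cast.2 hN0
      have h8 : 8 * (L * (L / N)) ≤ ε := by
        rw [div_lt_iff₀ hε] at hN
        rw [show 8 * (L * (L / N)) = 8 * L ^ 2 / N by ring, div_le_iff₀ (by positivity)]
        linarith
      have hr : L / N ≤ L := div_le_self hL.le hN'
      have hr0 : 0 ≤ L / N := by positivity
      nlinarith [norm_nonneg (chain L N N z), norm_nonneg z]

end Vale.Agent.P209
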