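import Vale.Agent.P209.Monomial

/-!
Unimodular pieces of a simplex, indexed by words.
-/

namespace Vale.Agent.P209

variable {n m : ℕ}

/-- Partial sums. -/
def cum (x : Fin n → ℝ) (i : Fin n) : ℝ := ∑ j ∈ Finset.Iic i, x j

/-- The partial sum matrix. -/
def cumMat (n : ℕ) : Matrix (Fin n) (Fin n) ℤ := fun i j => if j ≤ i then 1 else 0

/-- The matrix of a coordinate permutation. -/
def permMat (σ : Equiv.Perm (Fin n)) : Matrix (Fin n) (Fin n) ℤ := fun i j => if j = σ i then 1 else 0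

lemma isUnit_cumMat (n : ℕ) : IsUnit (cumMat n).det := by
  rw [Matrix.det_of_isLowerTriangular (cumMat n) (fun i j h => ?_)]
  · simp [cumMat]
  · simp only [cumMat]
    exact if_neg (not_le.2 (by simpa using h))

lemma isUnit_permMat (σ : Equiv.Perm (Fin n)) : IsUnit (permMat σ).det := by
  have h : permMat σ * (permMat σ).transpose = 1 := by
    ext i j
    simp [Matrix.mul_apply, permMat, Matrix.one_apply, eq_comm]
  exact IsUnit.of_mul_eq_one (permMat σ).transpose.det (by rw [← Matrix.det_mul, h, Matrix.det_one])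

/-- The linear part of a piece. -/
noncomputable def pieceA (σ : Equiv.Perm (Fin n)) : Matrix (Fin n) (Fin n) ℤ :=
  (cumMat n)⁻¹ * permMat σ * cumMat n

/-- The inverse transpose of the linear part. -/
noncomputable def pieceB (σ : Equiv.Perm (Fin n)) : Matrix (Fin n) (Fin n) ℤ :=
  (pieceA σ)⁻¹.transpose

lemma pieceB_mul (σ : Equiv.Perm (Fin n)) : (pieceB σ).transpose * pieceA σ = 1 := by
  rw [pieceB, Matrix.transpose_transpose]
  refine Matrix.nonsing_inv_mul _ ?_
  rw [pieceA, Matrix.det_mul, Matrix.det_mul]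
  exact ((Matrix.isUnit_nonsing_inv_det _ (isUnit_cumMat n)).mul (isUnit_permMat σ)).mul (isUnit_cumMat n)

/-- The translation part of a piece, given the shift of its partial sums. -/
noncomputable def pieceV (shift : Fin n → ℝ) : Fin n → ℝ :=
  ((cumMat n)⁻¹.map (Int.cast : ℤ → ℝ)).mulVec shift

lemma cum_eq_mulVec (x : Fin n → ℝ) : cum x = ((cumMat n).map (Int.cast : ℤ → ℝ)).mulVec x := by
  funext i
  have h : (Finset.univ.filter fun j : Fin n => j ≤ i) = Finset.Iic i := by ext j; simp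
  simp [cum, Matrix.mulVec, dotProduct, cumMat, apply_ite (Int.cast : ℤ → ℝ), ← Finset.sum_filter, h]

lemma cum_act' (σ : Equiv.Perm (Fin n)) (shift : Fin n → ℝ) (z : Fin n → ℂ) (i : Fin n) :
    cum (act' (pieceA σ) (pieceV shift) z) i = shift i + cum (act z) (σ i) := by
  have ha : act' (pieceA σ) (pieceV shift) z
      = ((pieceA σ).map (Int.cast : ℤ → ℝ)).mulVec (act z) + pieceV shift := by
    funext j; simp [act', Matrix.mulVec, dotProduct]
  have hSA : cumMat n * pieceA σ = permMat σ * cumMat n := by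
    rw [pieceA, ← mul_assoc, ← mul_assoc, Matrix.mul_nonsing_inv _ (isUnit_cumMat n), one_mul]
  have hcast : ∀ M N : Matrix (Fin n) (Fin n) ℤ,
      (M * N).map (Int.cast : ℤ → ℝ) = M.map (Int.cast : ℤ → ℝ) * N.map (Int.cast : ℤ → ℝ) := fun M N =>
    Matrix.map_mul (f := Int.castRingHom ℝ)
  have hperm : ∀ x : Fin n → ℝ, ((permMat σ).map (Int.cast : ℤ → ℝ)).mulVec x i = x (σ i) := fun x => by
    simp [Matrix.mulVec, dotProduct, permMat, apply_ite (Int.cast : ℤ → ℝ)]
  rw [cum_eq_mulVec, ha, Matrix.mulVec_add, Matrix.mulVec_mulVec, ← hcast, hSA, hcast,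
    ← Matrix.mulVec_mulVec, Pi.add_apply, hperm, pieceV, Matrix.mulVec_mulVec, ← hcast,
    Matrix.mul_nonsing_inv _ (isUnit_cumMat n)]
  simp [cum_eq_mulVec, add_comm]

lemma cum_strictMono {x : Fin n → ℝ} (hx : ∀ j, 0 < x j) : StrictMono (cum x) := fun i j h =>
  Finset.sum_lt_sum_of_subset (Finset.Iic_subset_Iic.2 h.le) (Finset.mem_Iic.2 le_rfl)
    (fun hj => absurd (Finset.mem_Iic.1 hj) (not_le.2 h)) (hx j) fun k _ _ => (hx k).le

lemma cum_pos {x : Fin n → ℝ} (hx : ∀ j, 0 < x j) (i : Fin n) : 0 < cum x i :=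
  Finset.sum_pos (fun j _ => hx j) ⟨i, Finset.mem_Iic.2 le_rfl⟩

lemma cum_le_sum {x : Fin n → ℝ} (hx : ∀ j, 0 < x j) (i : Fin n) : cum x i ≤ ∑ j, x j :=
  Finset.sum_le_sum_of_subset_of_nonneg (Finset.subset_univ _) fun k _ _ => (hx k).le

lemma pos_of_cum {x : Fin n → ℝ} (h0 : ∀ i, 0 < cum x i) (hm : StrictMono (cum x)) (i : Fin n) :
    0 < x i := by
  by_cases hi : (i : ℕ) = 0
  · have : Finset.Iic i = {i} := by
      ext j; simp only [Finset.mem_Iic, Finset.mem_singleton, Fin.le_def, Fin.ext_iff]; lia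
    simpa [cum, this] using h0 i
  · let p : Fin n := ⟨i - 1, by lia⟩
    have hp : p < i := by simp only [Fin.lt_def, p]; lia
    have : Finset.Iic i = insert i (Finset.Iic p) := by
      ext j; simp only [Finset.mem_Iic, Finset.mem_insert, Fin.le_def, Fin.ext_iff, p]; lia
    have h := hm hp
    rw [cum, cum, this, Finset.sum_insert (by simp [hp])] at h
    linarith

lemma sum_eq_cum {x : Fin n → ℝ} (hn : 0 < n) : ∑ j, x j = cum x ⟨n - 1, by lia⟩ := by
  refine (Finset.sum_congr ?_ fun _ _ => rfl).symm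
  ext j; simp only [Finset.mem_Iic, Finset.mem_univ, iff_true, Fin.le_def]; lia

/-- The shift of the piece with word `c`. -/
noncomputable def pieceShift (D w : ℝ) (c : Fin n → Fin m) (i : Fin n) : ℝ :=
  D + ((c (Tuple.sort c i) : ℕ) : ℝ) * w

/-- The points of the piece with word `c`, in partial sum coordinates. -/
noncomputable def piecePt (D w : ℝ) (c : Fin n → Fin m) (f : Fin n → ℝ) (i : Fin n) : ℝ :=
  pieceShift D w c i + f (Tuple.sort c i)

/-- An admissible vector of partial sums. -/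
def IsChain (w : ℝ) (f : Fin n → ℝ) : Prop := StrictMono f ∧ ∀ i, 0 < f i ∧ f i < w

lemma lt_of_digit_lt {w : ℝ} {f : Fin n → ℝ} (hf : IsChain w f) {d e : ℕ} (h : d < e) (i j : Fin n) :
    (d : ℝ) * w + f i < (e : ℝ) * w + f j := by
  have h1 := (hf.2 i).2
  have h2 := (hf.2 j).1
  have hw : 0 < w := lt_trans (hf.2 i).1 h1
  have : (d : ℝ) + 1 ≤ e := by exact_mod_cast h
  nlinarith

lemma sort_lt {c : Fin n → Fin m} {i j : Fin n} (hij : i < j) (h : c (Tuple.sort c i) = c (Tuple.sort c j)) :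
    Tuple.sort c i < Tuple.sort c j := by
  exact (Tuple.eq_sort_iff.1 rfl).2 i j hij h

lemma piecePt_strictMono {D w : ℝ} {c : Fin n → Fin m} {f : Fin n → ℝ} (hf : IsChain w f) :
    StrictMono (piecePt D w c f) := by
  intro i j hij
  simp only [piecePt, pieceShift, add_assoc, add_lt_add_iff_left]
  rcases (Tuple.monotone_sort c hij.le).lt_or_eq with h | h
  · exact lt_of_digit_lt hf h _ _
  · simp only [Function.comp_apply] at h
    rw [h, add_lt_add_iff_left]
    exact hf.1 (sort_lt hij h)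

lemma piecePt_pos {D w : ℝ} (hD : 0 ≤ D) (hw : 0 ≤ w) {c : Fin n → Fin m} {f : Fin n → ℝ}
    (hf : ∀ i, 0 < f i) (i : Fin n) : 0 < piecePt D w c f i := by
  have := hf (Tuple.sort c i)
  simp only [piecePt, pieceShift]; positivity

lemma piecePt_lt {D w : ℝ} {c : Fin n → Fin m} {f : Fin n → ℝ} (hf : IsChain w f) (i : Fin n) :
    piecePt D w c f i < D + m * w := by
  have h1 := (hf.2 (Tuple.sort c i)).2
  have hw : 0 < w := lt_trans (hf.2 (Tuple.sort c i)).1 h1
  have h2 : ((c (Tuple.sort c i) : ℕ) : ℝ) + 1 ≤ m := by exact_mod_cast (c (Tuple.sort c i)).2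
  simp only [piecePt, pieceShift]
  nlinarith

lemma piecePt_disjoint {D w : ℝ} {c c' : Fin n → Fin m} {f f' : Fin n → ℝ} (hf : IsChain w f)
    (hf' : IsChain w f') (h : piecePt D w c f = piecePt D w c' f') : c = c' := by
  have hd : ∀ i, c (Tuple.sort c i) = c' (Tuple.sort c' i) ∧ f (Tuple.sort c i) = f' (Tuple.sort c' i) := by
    intro i
    have hi := congr_fun h i
    simp only [piecePt, pieceShift, add_assoc, add_right_inj] at hi
    have hw : 0 < w := lt_trans (hf.2 i).1 (hf.2 i).2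
    have h1 := hf.2 (Tuple.sort c i)
    have h2 := hf'.2 (Tuple.sort c' i)
    have he : c (Tuple.sort c i) = c' (Tuple.sort c' i) := by
      rcases lt_trichotomy (c (Tuple.sort c i) : ℕ) (c' (Tuple.sort c' i) : ℕ) with h3 | h3 | h3
      · have : ((c (Tuple.sort c i) : ℕ) : ℝ) + 1 ≤ (c' (Tuple.sort c' i) : ℕ) := by exact_mod_cast h3
        nlinarith
      · exact Fin.ext h3
      · have : ((c' (Tuple.sort c' i) : ℕ) : ℝ) + 1 ≤ (c (Tuple.sort c i) : ℕ) := by exact_mod_cast h3
        nlinarith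
    rw [he] at hi
    exact ⟨he, by linarith⟩
  have hff : f = f' := by
    refine (hf.1.range_inj hf'.1).1 (Set.ext fun x => ⟨?_, ?_⟩)
    · rintro ⟨j, rfl⟩
      exact ⟨_, ((hd ((Tuple.sort c).symm j)).2.symm.trans (by simp))⟩
    · rintro ⟨j, rfl⟩
      exact ⟨_, ((hd ((Tuple.sort c').symm j)).2.trans (by simp))⟩
  subst hff
  funext j
  have h1 := hd ((Tuple.sort c).symm j)
  have h2 := hf.1.injective h1.2
  rw [← h2] at h1
  simpa using h1.1

end Vale.Agent.P209
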